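import Vale.Agent.P231Z.Tube.Geo
import Vale.Agent.P231Z.Res.Defs

/-! P231, the tube around the cut pairs: the retraction onto the cut pairs is smooth. -/

set_option maxSynthPendingDepth 3
set_option linter.unusedSectionVars false
set_option linter.unusedVariables false

open Bundle Manifold Set Filter Module
open scoped ContDiff Manifold Topology

namespace Vale.Agent.P231Z.Tube

open Vale.Agent.P234 Vale.Agent.P231 Vale.Agent.P231.WE
open Vale.Agent.P231.Fm Vale.Agent.P231.W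

noncomputable section

variable {E : Type*} [NormedAddCommGroup E] [NormedSpace ℝ E]
  {M : Type*} [MetricSpace M] [ChartedSpace E M]
  [RiemannianBundle (fun x : M => TangentSpace 𝓘(ℝ, E) x)]
  {e : ∀ x : M, TangentSpace 𝓘(ℝ, E) x → M}
  [FiniteDimensional ℝ E] [IsManifold 𝓘(ℝ, E) ∞ M]
  [IsContMDiffRiemannianBundle 𝓘(ℝ, E) ∞ E (fun x : M => TangentSpace 𝓘(ℝ, E) x)]
  [CompactSpace M] [ConnectedSpace M] [IsRiemannianManifold 𝓘(ℝ, E) M]

theorem map_cut2 (F : Facts e) {D : ℝ} (hD : 0 < D) (hB : InjGE e D)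
    (hdiam : ∀ p q : M, dist p q ≤ D) {l : ℕ}
    (hl : ∀ x y : M, dist x y = D → finrank ℝ (H775.Pl e D x y) = l + 1) :
    (((dM E M).prod (dM E M)).on {q | q.2 ≠ q.1}).Map (CoZ.dZ e D)
      (fun q => (q.1, cutPt e D q.1 q.2)) := by
  intro V _ _ _ u x hu
  have h0 : ∀ᶠ y in 𝓝 x, (u y).2 ≠ (u y).1 := hu.2
  have h1 := At_cutPt F hD hB hdiam hl hu.1.1 hu.1.2 h0.self_of_nhds.symm
  obtain ⟨v, h2, h3⟩ := exists_At_lift F hD hB hdiam hl hu.1.1 h1
    (h0.mono fun y hy => dist_cutPt F hD hB hdiam hy.symm)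
  exact ⟨v, h3.mono fun y hy => Prod.ext hy.1 hy.2, h2⟩

theorem cutSm (F : Facts e) {D : ℝ} (hD : 0 < D) (hB : InjGE e D)
    (hdiam : ∀ p q : M, dist p q ≤ D) {l : ℕ}
    (hl : ∀ x y : M, dist x y = D → finrank ℝ (H775.Pl e D x y) = l + 1) : Res.CutSm e D :=
  map_cut2 F hD hB hdiam hl

end

end Vale.Agent.P231Z.Tube
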