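import Vale.Agent.P231Z.Tube.Glue
import Vale.Agent.P231Z.Res.Defs

/-! P231, the tube around the cut pairs (6): the gluing theorem for chains of four points. -/

set_option maxSynthPendingDepth 3
set_option linter.unusedSectionVars false
set_option linter.unusedVariables false

open Bundle Manifold Set Filter Module MeasureTheory
open scoped ContDiff Manifold Topology

namespace Vale.Agent.P231Z.Tube

open Vale.Agent.P234 Vale.Agent.P231 Vale.Agent.P231.WE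
open Vale.Agent.P231.Fm Vale.Agent.P231.W Vale.Agent.P231.Co Vale.Agent.P231.CoZ
open Vale.Agent.P231Z.Res (sA3 sP4 sZ dQ4 dP4)

noncomputable section

section Difs

variable (E : Type*) [NormedAddCommGroup E] [NormedSpace ℝ E]
  (M : Type*) [MetricSpace M] [ChartedSpace E M]

/-- chains of three points -/
abbrev dX3 (D : ℝ) : Dif (M × M × M) :=
  ((dM E M).prod ((dM E M).prod (dM E M))).on {z | dist z.1 z.2.1 < D ∧ dist z.2.1 z.2.2 < D}

/-- open chains of four points -/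
abbrev dA4 (D : ℝ) : Dif (M × M × M × M) := (dQ4 E M).on (sA3 D)

/-- open chains of four points whose end points are at distance `D` -/
abbrev dZQ (D : ℝ) : Dif (M × M × M × M) := (dQ4 E M).on (sZ D)

variable {E M}

/-- rebracketing -/
def asc (z : M × M × M × M) : (M × M × M) × M := ((z.1, z.2.1, z.2.2.1), z.2.2.2)

/-- rebracketing -/
def uns (y : (M × M × M) × M) : M × M × M × M := (y.1.1, y.1.2.1, y.1.2.2, y.2)

/-- the third point -/
def q2 (z : M × M × M) : M := z.2.2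

/-- the end points -/
def cut4 (z : M × M × M × M) : M × M := (z.1, z.2.2.2)

theorem sP4_sub {D : ℝ} : (sP4 D : Set (M × M × M × M)) ⊆ sA3 D := fun _ h =>
  ⟨h.1, h.2.1, h.2.2.1⟩

theorem map_q0 {D : ℝ} : (dX3 E M D).Map (dM E M) Prod.fst := fun h => h.1.1

theorem map_q2 {D : ℝ} : (dX3 E M D).Map (dM E M) q2 := fun h => h.1.2.2

theorem map_ascA {D : ℝ} : (dA4 E M D).Map (dA E (dX3 E M D) D q2) asc := fun h =>
  ⟨⟨⟨⟨h.1.1, h.1.2.1, h.1.2.2.1⟩, h.2.mono fun _ k => ⟨k.1, k.2.1⟩⟩, h.1.2.2.2⟩,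
    h.2.mono fun _ k => k.2.2⟩

theorem map_ascP {D : ℝ} : (dP4 E M D).Map (dP E (dX3 E M D) D Prod.fst q2) asc := fun h =>
  ⟨⟨⟨⟨h.1.1, h.1.2.1, h.1.2.2.1⟩, h.2.mono fun _ k => ⟨k.1, k.2.1⟩⟩, h.1.2.2.2⟩,
    h.2.mono fun _ k => ⟨k.2.2.1, (dist_comm _ _).trans_lt k.2.2.2⟩⟩

theorem map_ascZ {D : ℝ} : (dZQ E M D).Map (dZ4 E (dX3 E M D) D Prod.fst q2) asc := fun h =>
  ⟨⟨⟨⟨h.1.1, h.1.2.1, h.1.2.2.1⟩, h.2.mono fun _ k => ⟨k.1.1, k.1.2.1⟩⟩, h.1.2.2.2⟩,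
    h.2.mono fun _ k => ⟨k.1.2.2, k.2⟩⟩

theorem map_unsP {D : ℝ} : (dP E (dX3 E M D) D Prod.fst q2).Map (dP4 E M D) uns := fun h =>
  ⟨⟨h.1.1.1.1, h.1.1.1.2.1, h.1.1.1.2.2, h.1.2⟩, (h.1.1.2.and h.2).mono fun _ k =>
    ⟨k.1.1, k.1.2, k.2.1, (dist_comm _ _).trans_lt k.2.2⟩⟩

theorem map_unsZ {D : ℝ} : (dZ4 E (dX3 E M D) D Prod.fst q2).Map (dZQ E M D) uns := fun h =>
  ⟨⟨h.1.1.1.1, h.1.1.1.2.1, h.1.1.1.2.2, h.1.2⟩, (h.1.1.2.and h.2).mono fun _ k =>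
    ⟨⟨k.1.1, k.1.2, k.2.1⟩, k.2.2⟩⟩

end Difs

variable {E : Type*} [NormedAddCommGroup E] [NormedSpace ℝ E]
  {M : Type*} [MetricSpace M] [ChartedSpace E M]
  [RiemannianBundle (fun x : M => TangentSpace 𝓘(ℝ, E) x)]
  {e : ∀ x : M, TangentSpace 𝓘(ℝ, E) x → M}
  [FiniteDimensional ℝ E] [IsManifold 𝓘(ℝ, E) ∞ M]
  [IsContMDiffRiemannianBundle 𝓘(ℝ, E) ∞ E (fun x : M => TangentSpace 𝓘(ℝ, E) x)]
  [CompactSpace M] [ConnectedSpace M] [IsRiemannianManifold 𝓘(ℝ, E) M]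

/-- the normal sphere bundle -/
abbrev dSQ (e : ∀ x : M, TangentSpace 𝓘(ℝ, E) x → M) (D : ℝ) :
    Dif ((M × M × M × M) × UT E M) := dPb (dZQ E M D) (dUT E M) (fb e D) cut4

/-- the middle of the tube -/
def tube4 (e : ∀ x : M, TangentSpace 𝓘(ℝ, E) x → M) (D : ℝ) (z : (M × M × M × M) × UT E M) :
    M × M × M × M :=
  (z.1.1, z.1.2.1, z.1.2.2.1,
    gm e (z.2, D - 1 / 2 * ((D ^ 2 - dist z.1.2.2.1 z.1.2.2.2 ^ 2) / (4 * D))))

variable (F : Facts e) {D : ℝ} (hD : 0 < D) (hB : InjGE e D) (hdiam : ∀ p q : M, dist p q ≤ D)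
  {l : ℕ} (hl : ∀ x y : M, dist x y = D → finrank ℝ (H775.Pl e D x y) = l + 1)

include F hD hB hdiam hl in
theorem map_cut4 : (dZQ E M D).Map (CoZ.dZ e D) cut4 := fun h =>
  map_cutp F hD hB hdiam hl map_q0 (map_ascZ h)

theorem map_ascS : (dSQ e D).Map (dS e (dX3 E M D) D Prod.fst q2) (fun z => (asc z.1, z.2)) :=
  fun h => ⟨⟨map_ascZ h.1.1, h.1.2⟩, h.2.mono fun _ k => k⟩

theorem map_unsS : (dS e (dX3 E M D) D Prod.fst q2).Map (dSQ e D) (fun z => (uns z.1, z.2)) :=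
  fun h => ⟨⟨map_unsZ h.1.1, h.1.2⟩, h.2.mono fun _ k => k⟩

include F hD hB in
theorem map_tube4 : (dSQ e D).Map (dP4 E M D) (tube4 e D) := fun h =>
  map_unsP (map_tube F hD hB map_q2 (map_ascS h))

variable {Fr : Type*} {DF : Dif Fr} {Fv : Type} [NormedAddCommGroup Fv] [InnerProductSpace ℝ Fv]
  [FiniteDimensional ℝ Fv] [MeasurableSpace Fv] [BorelSpace Fv] {m : ℕ}
  {q : Fr → M × M} {ev : Fr × Fv → UT E M}

/-- the residue along the chains to a cut point -/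
def ResQ (h : Co.Bun (CoZ.dZ e D) (dUT E M) DF Fv (fb e D) q ev)
    (o : OrthonormalBasis (Fin m) ℝ Fv) (om : Form (dP4 E M D)) : Form (dZQ E M D) :=
  (h.pb (map_cut4 F hD hB hdiam hl)).SI o (Form.pull (tube4 e D) (map_tube4 F hD hB) om)

variable (h : Co.Bun (CoZ.dZ e D) (dUT E M) DF Fv (fb e D) q ev)
  (o : OrthonormalBasis (Fin m) ℝ Fv)

theorem ResQ_add (v w : Form (dP4 E M D)) : ResQ F hD hB hdiam hl h o (v + w) =
    ResQ F hD hB hdiam hl h o v + ResQ F hD hB hdiam hl h o w := by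
  unfold ResQ
  rw [Co.pull_add (map_tube4 F hD hB), Bun.SI_add]

theorem ResQ_sub (v w : Form (dP4 E M D)) : ResQ F hD hB hdiam hl h o (v - w) =
    ResQ F hD hB hdiam hl h o v - ResQ F hD hB hdiam hl h o w := by
  unfold ResQ
  rw [Co.pull_sub (map_tube4 F hD hB), Bun.SI_sub]

theorem ResQ_smul (c : ℝ) (w : Form (dP4 E M D)) :
    ResQ F hD hB hdiam hl h o (c • w) = c • ResQ F hD hB hdiam hl h o w := by
  unfold ResQ
  rw [Co.pull_smul (map_tube4 F hD hB), Bun.SI_smul]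

theorem ResQ_d (w : Form (dP4 E M D)) : ResQ F hD hB hdiam hl h o w.d =
    (-1 : ℝ) ^ (m + 1) • (ResQ F hD hB hdiam hl h o w).d := by
  unfold ResQ
  rw [Form.pull_d _ (map_tube4 F hD hB), Bun.SI_d]

theorem isDeg_ResQ {w : Form (dP4 E M D)} {j k : ℕ} (hw : Form.IsDeg j w)
    (hj : j + 1 = k + m) : Form.IsDeg k (ResQ F hD hB hdiam hl h o w) :=
  Bun.isDeg_SI _ o (hw.pull _ (map_tube4 F hD hB)) hj

theorem ResQ_eq_zero {w : Form (dP4 E M D)} {j : ℕ} (hw : Form.IsDeg j w)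
    (hj : j + 1 < m) : ResQ F hD hB hdiam hl h o w = 0 :=
  Bun.SI_eq_zero _ o (hw.pull _ (map_tube4 F hD hB)) hj

theorem Res4_uns (om : Form (dP4 E M D)) :
    Res4 F hD hB hdiam hl map_q0 map_q2 h o (Form.pull uns map_unsP om) =
      Form.pull uns map_unsZ (ResQ F hD hB hdiam hl h o om) := by
  have h1 := h.SI_pb_nat o (map_cut4 F hD hB hdiam hl)
    (map_cutp (p2 := q2) (DX := dX3 E M D) F hD hB hdiam hl map_q0) (r := uns) map_unsZ
    (fun _ => rfl) (Form.pull (tube4 e D) (map_tube4 F hD hB) om)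
  unfold Res4 ResQ
  rw [← h1]
  congr 1
  exact Form.pull2_eq (f := tube e D q2) (g := uns) (f' := fun z => (uns z.1, z.2))
    (g' := tube4 e D) (map_tube F hD hB map_q2) map_unsP map_unsS (map_tube4 F hD hB)
    (fun _ => rfl) om

/-- **gluing**, for chains of four points -/
theorem glue4 (v₀ : UT E M) {ψ : Form (dUT E M)} {ε : Form (CoZ.dZ e D)}
    (hψ : h.Ang o ψ ε) (hm : 0 < m) {om : Form (dP4 E M D)} (hom : om.d = 0) {j : ℕ}
    (hj : Form.IsDeg j om) {η : Form (dZQ E M D)} (hη : ResQ F hD hB hdiam hl h o om = η.d) :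
    ∃ (om' : Form (dA4 E M D)) (κ : Form (dP4 E M D)), om'.d = 0 ∧ Form.IsDeg j om' ∧
      om = Form.pull id (Dif.map_on_mono sP4_sub) om' + κ.d ∧
      (∀ i, j = i + 1 → Form.IsDeg i κ) ∧ (j = 0 → κ = 0) := by
  obtain ⟨om', κ, k1, k2, k3, k4, k5⟩ := glue F hD hB hdiam hl (map_q0 (D := D)) map_q2 v₀ h o hψ hm
    (om := Form.pull uns map_unsP om) (by rw [← Form.pull_d, hom, pull_zero])
    (hj.pull _ map_unsP) (η := Form.pull uns map_unsZ η)
    (by rw [Res4_uns, hη, Form.pull_d])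
  refine ⟨Form.pull asc map_ascA om', Form.pull asc map_ascP κ, ?_, k2.pull _ map_ascA, ?_,
    fun i hi => (k4 i hi).pull _ map_ascP, fun h0 => ?_⟩
  · rw [← Form.pull_d, k1, pull_zero]
  · have h1 := congrArg (Form.pull asc (map_ascP (E := E) (D := D))) k3
    rw [pull_add, Form.pull_d, Form.pull2_id _ _ (fun _ => rfl)] at h1
    rw [h1]
    congr 1
    exact Form.pull2_eq (f := asc) (g := id) (f' := id) (g' := asc) _ _ _ _ (fun _ => rfl) om'
  · rw [k5 h0, pull_zero]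

end

end Vale.Agent.P231Z.Tube
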