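import Vale.Agent.P231Z.Tube.Polar
import Vale.Agent.P231.WE.Good
import Vale.Agent.P231.WD.GeoInst

/-! P231, the tube around the cut pairs (3): the radial push onto the cut locus and the direction
of the minimal geodesic are smooth in both points. -/

set_option maxSynthPendingDepth 3
set_option linter.unusedSectionVars false
set_option linter.unusedVariables false

open Bundle Manifold Set Filter Module
open scoped ContDiff Manifold Topology

namespace Vale.Agent.P231Z.Tube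

open Vale.Agent.P234 Vale.Agent.P231 Vale.Agent.P231.H775 Vale.Agent.P231.WE
open Vale.Agent.P231.Fm Vale.Agent.P231.W Vale.Agent.P231.WD3

noncomputable section

variable {E : Type*} [NormedAddCommGroup E] [NormedSpace ℝ E] [FiniteDimensional ℝ E]
  {M : Type*} [MetricSpace M] [ChartedSpace E M] [IsManifold 𝓘(ℝ, E) ∞ M]
  [RiemannianBundle (fun x : M => TangentSpace 𝓘(ℝ, E) x)]
  [IsContMDiffRiemannianBundle 𝓘(ℝ, E) ∞ E (fun x : M => TangentSpace 𝓘(ℝ, E) x)]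
  {e : ∀ x : M, TangentSpace 𝓘(ℝ, E) x → M}

section Plot

variable {V : Type*} [NormedAddCommGroup V] [NormedSpace ℝ V]

theorem smV_log (F : Facts e) {D : ℝ} (hB : InjGE e D) {a b : V → M} {s : V}
    (ha : ContMDiffAt 𝓘(ℝ, V) 𝓘(ℝ, E) ∞ a s) (hb : ContMDiffAt 𝓘(ℝ, V) 𝓘(ℝ, E) ∞ b s)
    (h : dist (a s) (b s) < D) : SmV a (fun t => logMap e (a t) (b t)) s :=
  smV_lm F hB ha hb h

theorem contDiffAt_dist_sq (F : Facts e) {D : ℝ} (hB : InjGE e D) {a b : V → M} {s : V}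
    (ha : ContMDiffAt 𝓘(ℝ, V) 𝓘(ℝ, E) ∞ a s) (hb : ContMDiffAt 𝓘(ℝ, V) 𝓘(ℝ, E) ∞ b s)
    (h : dist (a s) (b s) < D) : ContDiffAt ℝ ∞ (fun t => dist (a t) (b t) ^ 2) s := by
  refine (smV_log F hB ha hb h).norm_sq.congr_of_eventuallyEq ?_
  filter_upwards [(ha.continuousAt.dist hb.continuousAt).eventually (gt_mem_nhds h)] with t ht
  rw [(exp_logMap F hB ht).2]

theorem contDiffAt_dist (F : Facts e) {D : ℝ} (hB : InjGE e D) {a b : V → M} {s : V}
    (ha : ContMDiffAt 𝓘(ℝ, V) 𝓘(ℝ, E) ∞ a s) (hb : ContMDiffAt 𝓘(ℝ, V) 𝓘(ℝ, E) ∞ b s)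
    (h : dist (a s) (b s) < D) (hne : a s ≠ b s) :
    ContDiffAt ℝ ∞ (fun t => dist (a t) (b t)) s := by
  have h1 : dist (a s) (b s) ^ 2 ≠ 0 := pow_ne_zero _ (dist_pos.2 hne).ne'
  have h2 := (contDiffAt_dist_sq F hB ha hb h).sqrt h1
  simp only [Real.sqrt_sq dist_nonneg] at h2
  exact h2

theorem smV_dirAt (F : Facts e) {D : ℝ} (hB : InjGE e D) {a b : V → M} {s : V}
    (ha : ContMDiffAt 𝓘(ℝ, V) 𝓘(ℝ, E) ∞ a s) (hb : ContMDiffAt 𝓘(ℝ, V) 𝓘(ℝ, E) ∞ b s)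
    (h : dist (a s) (b s) < D) (hne : a s ≠ b s) :
    SmV a (fun t => dirAt e (a t) (b t)) s := by
  have h1 := SmV.smul (c := fun t => (dist (a t) (b t))⁻¹)
    ((contDiffAt_dist F hB ha hb h hne).inv (dist_pos.2 hne).ne') (smV_log F hB ha hb h)
  refine h1.congr ?_
  filter_upwards [(ha.continuousAt.dist hb.continuousAt).eventually (gt_mem_nhds h)] with t ht
  rw [dirAt, (exp_logMap F hB ht).2]

end Plot

variable [CompactSpace M] [ConnectedSpace M] [IsRiemannianManifold 𝓘(ℝ, E) M]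

theorem cutPt_of_lt {D : ℝ} {x y : M} (h : dist x y < D) :
    cutPt e D x y = e x (D • dirAt e x y) := by rw [cutPt, if_pos h]

theorem cutPt_of_eq {D : ℝ} {x y : M} (h : dist x y = D) : cutPt e D x y = y := by
  rw [cutPt, if_neg (by rw [h]; exact lt_irrefl D)]

theorem dist_cutPt (F : Facts e) {D : ℝ} (hD : 0 < D) (hB : InjGE e D)
    (hdiam : ∀ p q : M, dist p q ≤ D) {x y : M} (h : x ≠ y) : dist x (cutPt e D x y) = D := by
  rcases lt_or_eq_of_le (hdiam x y) with h1 | h1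
  · rw [cutPt_of_lt h1, dist_comm]
    exact dist_of_Lk hD hB ⟨norm_dirAt F hB h1 h.symm, rfl⟩
  · rw [cutPt_of_eq h1, h1]

/-- **the radial push onto the cut locus is smooth in both points** -/
theorem contMDiffAt_cutPt {V : Type*} [NormedAddCommGroup V] [NormedSpace ℝ V] [CompleteSpace V]
    (F : Facts e) {D : ℝ} (hD : 0 < D) (hB : InjGE e D)
    (hdiam : ∀ p q : M, dist p q ≤ D) {l : ℕ}
    (hl : ∀ x y : M, dist x y = D → finrank ℝ (Pl e D x y) = l + 1) {a b : V → M} {s₀ : V}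
    (ha : ∀ᶠ s in 𝓝 s₀, ContMDiffAt 𝓘(ℝ, V) 𝓘(ℝ, E) ∞ a s)
    (hb : ∀ᶠ s in 𝓝 s₀, ContMDiffAt 𝓘(ℝ, V) 𝓘(ℝ, E) ∞ b s) (hne : a s₀ ≠ b s₀) :
    ∀ᶠ s in 𝓝 s₀, ContMDiffAt 𝓘(ℝ, V) 𝓘(ℝ, E) ∞ (fun t => cutPt e D (a t) (b t)) s := by
  have hc : ContinuousAt (fun t => dist (a t) (b t)) s₀ :=
    ha.self_of_nhds.continuousAt.dist hb.self_of_nhds.continuousAt
  rcases lt_or_eq_of_le (hdiam (a s₀) (b s₀)) with h | h
  · have h1 : ∀ᶠ s in 𝓝 s₀, dist (a s) (b s) < D := hc.eventually (gt_mem_nhds h)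
    have h2 : ∀ᶠ s in 𝓝 s₀, 0 < dist (a s) (b s) := hc.eventually (lt_mem_nhds (dist_pos.2 hne))
    filter_upwards [ha, hb, h1, h2, eventually_eventually_nhds.2 h1] with s k1 k2 k3 k4 k5
    have h3 := (SmV.smul (c := fun _ => D) contDiffAt_const
      (smV_dirAt F hB k1 k2 k3 (dist_pos.1 k4))).exp F.isExp
    refine h3.congr_of_eventuallyEq ?_
    filter_upwards [k5] with t ht
    exact cutPt_of_lt ht
  · obtain ⟨g, A, h0, h1⟩ := exists_polar_fam F hD hB hdiam hl ha hb h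
    have h2 : ∀ᶠ s in 𝓝 s₀, ‖A s‖ ^ 2 < D ^ 2 := by
      refine h1.self_of_nhds.1.norm_sq.continuousAt.eventually (gt_mem_nhds ?_)
      simp only
      rw [h0, norm_zero]
      nlinarith only [hD]
    have h3 : ∀ᶠ s in 𝓝 s₀, cutPt e D (a s) (b s) = g s := by
      filter_upwards [h1, h2] with s k1 k2
      obtain ⟨-, k3, k4, k5⟩ := k1
      by_cases hA : A s = 0
      · rw [hA, exp_zero_eq F.isExp] at k5
        rw [← k5]
        exact cutPt_of_eq k3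
      · have k6 : ‖A s‖ < D := lt_of_pow_lt_pow_left₀ 2 hD.le k2
        obtain ⟨j1, -, -, j2, -⟩ := exp_dirAt_polar F hD hB hdiam k3 k4 hA k6 k5
        have j3 : 0 < ‖A s‖ := norm_pos_iff.2 hA
        rw [cutPt_of_lt (by linarith only [j1, j3]), j2]
    filter_upwards [h1, eventually_eventually_nhds.2 h3] with s k1 k2
    exact k1.1.base.congr_of_eventuallyEq k2

open Classical in
/-- the direction from `x` to `y` as an element of the unit tangent bundle -/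
def dirU (e : ∀ x : M, TangentSpace 𝓘(ℝ, E) x → M) (v₀ : UT E M) (x y : M) : UT E M :=
  if h : nm (E := E) x (dirAt e x y) = 1 then W.mk (E := E) x (dirAt e x y) h else v₀

theorem dirU_eq (F : Facts e) {D : ℝ} (hB : InjGE e D) (v₀ : UT E M) {x y : M}
    (h : dist x y < D) (hne : x ≠ y) :
    dirU e v₀ x y = W.mk (E := E) x (dirAt e x y) (norm_dirAt F hB h hne.symm) :=
  dif_pos (norm_dirAt F hB h hne.symm)

theorem foot_dirU (F : Facts e) {D : ℝ} (hB : InjGE e D) (v₀ : UT E M) {x y : M}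
    (h : dist x y < D) (hne : x ≠ y) : foot (dirU e v₀ x y) = x := by
  rw [dirU_eq F hB v₀ h hne]
  rfl

theorem gm_dirU (F : Facts e) {D : ℝ} (hB : InjGE e D) (v₀ : UT E M) {x y : M}
    (h : dist x y < D) (hne : x ≠ y) : gm e (dirU e v₀ x y, dist x y) = y := by
  rw [dirU_eq F hB v₀ h hne]
  exact exp_smul_dirAt F hB h hne.symm

theorem bar_dirU (F : Facts e) {D : ℝ} (hB : InjGE e D) (v₀ : UT E M) {x y : M}
    (h : dist x y < D) (hne : x ≠ y) : bar e D (dirU e v₀ x y) = cutPt e D x y := by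
  rw [dirU_eq F hB v₀ h hne, cutPt_of_lt h]
  rfl

theorem dist_foot_gm {D : ℝ} (hB : InjGE e D) (v : UT E M) {t : ℝ} (ht : |t| ≤ D) :
    dist (foot v) (gm e (v, t)) = |t| := by
  have h2 := nm_smul (E := E) (foot v) (vec' v) t
  rw [nm_vec' v, mul_one] at h2
  have h3 := hB (foot v) (t • vec' v : E) (h2.le.trans ht)
  exact h3.trans h2

theorem dist_gm_gm (F : Facts e) {D : ℝ} (hB : InjGE e D) (v : UT E M) {s t : ℝ}
    (h : |t - s| ≤ D) : dist (gm e (v, s)) (gm e (v, t)) = |t - s| := by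
  have h1 := dist_foot_gm hB (phi F (v, s)) h
  rw [foot_phi, gm_phi, add_sub_cancel] at h1
  exact h1

section At

variable {V : Type} [NormedAddCommGroup V] [NormedSpace ℝ V] [FiniteDimensional ℝ V]

theorem At_cont {a : V → M} {s : V} (ha : (dM E M).At a s) : ContinuousAt a s := by
  have ha' : ∀ᶠ y in 𝓝 s, ContMDiffAt 𝓘(ℝ, V) 𝓘(ℝ, E) ∞ a y := ha
  exact ha'.self_of_nhds.continuousAt

theorem At_cutPt (F : Facts e) {D : ℝ} (hD : 0 < D) (hB : InjGE e D)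
    (hdiam : ∀ p q : M, dist p q ≤ D) {l : ℕ}
    (hl : ∀ x y : M, dist x y = D → finrank ℝ (Pl e D x y) = l + 1) {a b : V → M} {s : V}
    (ha : (dM E M).At a s) (hb : (dM E M).At b s) (hne : a s ≠ b s) :
    (dM E M).At (fun t => cutPt e D (a t) (b t)) s := by
  have : CompleteSpace V := FiniteDimensional.complete ℝ V
  exact contMDiffAt_cutPt F hD hB hdiam hl ha hb hne

theorem sm_dist_sq (F : Facts e) {D : ℝ} (hB : InjGE e D) {a b : V → M} {s : V}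
    (ha : (dM E M).At a s) (hb : (dM E M).At b s) (h : dist (a s) (b s) < D) :
    Sm (fun t => dist (a t) (b t) ^ 2) s := by
  have ha' : ∀ᶠ y in 𝓝 s, ContMDiffAt 𝓘(ℝ, V) 𝓘(ℝ, E) ∞ a y := ha
  have hb' : ∀ᶠ y in 𝓝 s, ContMDiffAt 𝓘(ℝ, V) 𝓘(ℝ, E) ∞ b y := hb
  filter_upwards [ha', hb', ((At_cont ha).dist (At_cont hb)).eventually (gt_mem_nhds h)]
    with t k1 k2 k3
  exact contDiffAt_dist_sq F hB k1 k2 k3

theorem sm_dist (F : Facts e) {D : ℝ} (hB : InjGE e D) {a b : V → M} {s : V}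
    (ha : (dM E M).At a s) (hb : (dM E M).At b s) (h : dist (a s) (b s) < D) (hne : a s ≠ b s) :
    Sm (fun t => dist (a t) (b t)) s := by
  have ha' : ∀ᶠ y in 𝓝 s, ContMDiffAt 𝓘(ℝ, V) 𝓘(ℝ, E) ∞ a y := ha
  have hb' : ∀ᶠ y in 𝓝 s, ContMDiffAt 𝓘(ℝ, V) 𝓘(ℝ, E) ∞ b y := hb
  filter_upwards [ha', hb', ((At_cont ha).dist (At_cont hb)).eventually (gt_mem_nhds h),
    ((At_cont ha).dist (At_cont hb)).eventually (lt_mem_nhds (dist_pos.2 hne))]
    with t k1 k2 k3 k4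
  exact contDiffAt_dist F hB k1 k2 k3 (dist_pos.1 k4)

theorem At_dirU (F : Facts e) {D : ℝ} (hB : InjGE e D) (v₀ : UT E M) {a b : V → M} {s : V}
    (ha : (dM E M).At a s) (hb : (dM E M).At b s) (h : dist (a s) (b s) < D) (hne : a s ≠ b s) :
    (dUT E M).At (fun t => dirU e v₀ (a t) (b t)) s := by
  have ha' : ∀ᶠ y in 𝓝 s, ContMDiffAt 𝓘(ℝ, V) 𝓘(ℝ, E) ∞ a y := ha
  have hb' : ∀ᶠ y in 𝓝 s, ContMDiffAt 𝓘(ℝ, V) 𝓘(ℝ, E) ∞ b y := hb
  have h1 := ((At_cont ha).dist (At_cont hb)).eventually (gt_mem_nhds h)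
  have h2 := ((At_cont ha).dist (At_cont hb)).eventually (lt_mem_nhds (dist_pos.2 hne))
  have h3 : ∀ᶠ y in 𝓝 s, ContMDiffAt 𝓘(ℝ, V) 𝓘(ℝ, E).tangent ∞
      (fun t => (dirU e v₀ (a t) (b t)).1) y := by
    filter_upwards [ha', hb', h1, h2, eventually_eventually_nhds.2 (h1.and h2)]
      with t k1 k2 k3 k4 k5
    refine ContMDiffAt.congr_of_eventuallyEq (smV_dirAt F hB k1 k2 k3 (dist_pos.1 k4)) ?_
    filter_upwards [k5] with r hr
    rw [dirU_eq F hB v₀ hr.1 (dist_pos.1 hr.2)]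
    rfl
  exact h3

/-- smooth families of cut pairs lift to the unit tangent bundle -/
theorem exists_At_lift (F : Facts e) {D : ℝ} (hD : 0 < D) (hB : InjGE e D)
    (hdiam : ∀ p q : M, dist p q ≤ D) {l : ℕ}
    (hl : ∀ x y : M, dist x y = D → finrank ℝ (Pl e D x y) = l + 1) {a b : V → M} {s : V}
    (ha : (dM E M).At a s) (hb : (dM E M).At b s) (h : ∀ᶠ t in 𝓝 s, dist (a t) (b t) = D) :
    ∃ v : V → UT E M, (dUT E M).At v s ∧ ∀ᶠ t in 𝓝 s, foot (v t) = a t ∧ bar e D (v t) = b t := by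
  classical
  have : CompleteSpace V := FiniteDimensional.complete ℝ V
  obtain ⟨u₀, hu₀⟩ := exists_Lk F hD h.self_of_nhds
  obtain ⟨u, -, hu⟩ := exists_lift F hD hB hdiam hl (f := a) (g := b) ha hb h hu₀
  let v : V → UT E M := fun t => if k : nm (E := E) (a t) (u t) = 1 then W.mk (E := E) (a t) (u t) k
    else W.mk (E := E) (a s) u₀ hu₀.1
  have hv : ∀ t (k : nm (E := E) (a t) (u t) = 1), v t = W.mk (E := E) (a t) (u t) k :=
    fun t k => dif_pos k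
  refine ⟨v, ?_, ?_⟩
  · have h3 : ∀ᶠ y in 𝓝 s, ContMDiffAt 𝓘(ℝ, V) 𝓘(ℝ, E).tangent ∞ (fun t => (v t).1) y := by
      filter_upwards [hu, eventually_eventually_nhds.2 hu] with t k1 k2
      refine ContMDiffAt.congr_of_eventuallyEq k1.1 ?_
      filter_upwards [k2] with r hr
      rw [hv r hr.2.1]
      rfl
    exact h3
  · filter_upwards [hu] with t ht
    rw [hv t ht.2.1]
    exact ⟨rfl, ht.2.2⟩

end At

end

end Vale.Agent.P231Z.Tube
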