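import Vale.Agent.P231.Co.BunPb
import Vale.Agent.P231.Co.Hom

/-! P231, the tube around the cut pairs (2): abstract Gysin and extension lemmas. -/

set_option linter.unusedSectionVars false
set_option linter.unusedVariables false

open MeasureTheory Set Module Filter Topology
open scoped ContDiff

namespace Vale.Agent.P231Z.Tube

open Vale.Agent.P231 Vale.Agent.P231.Fm Vale.Agent.P231.Co
open Vale.Agent.P231.Fm (Sm Dif Form Lam)

section Gysin

variable {B S Fr Y : Type*} {DB : Dif B} {DS : Dif S} {DF : Dif Fr} {DY : Dif Y}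
variable {F : Type} [NormedAddCommGroup F] [InnerProductSpace ℝ F] [FiniteDimensional ℝ F]
variable {π : S → B} {q : Fr → B} {ev : Fr × F → S}
variable [MeasurableSpace F] [BorelSpace F] {m : ℕ} (o : OrthonormalBasis (Fin m) ℝ F)

/-- angular forms pull back -/
theorem ang_pb (h : Bun DB DS DF F π q ev) {p : Y → B} (hp : DY.Map DB p) {ψ : Form DS}
    {ε : Form DB} (hψ : h.Ang o ψ ε) :
    (h.pb hp).Ang o (Form.pull Prod.snd map_pb_snd ψ) (Form.pull p hp ε) where
  d := by
    rw [← Form.pull_d, hψ.d, pull_neg]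
    congr 1
    refine Form.ext_val fun E _ _ _ u x hu => ?_
    rw [Form.pull_val _ _ hu, Form.pull_val _ _ (map_pb_snd hu), Form.pull_val _ _ hu,
      Form.pull_val _ _ ((h.pb hp).hπ hu)]
    exact ε.congr (h.hπ (map_pb_snd hu)) (hu.2.mono fun y hy => hy)
  one := by rw [h.SI_pb o hp, hψ.one, pull_one]
  deg := hψ.deg.pull _ _
  dege := hψ.dege.pull _ _

/-- a closed form whose fibre integral is exact comes from the base -/
theorem gysin_exact (h : Bun DB DS DF F π q ev) {ψ : Form DS} {ε : Form DB} (hψ : h.Ang o ψ ε)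
    (hm : 0 < m) {σ : Form DS} (hσ : σ.d = 0) {j : ℕ} (hj : Form.IsDeg j σ) {η : Form DB}
    (hη : h.SI o σ = η.d) :
    ∃ (a : Form DB) (κ : Form DS), a.d = 0 ∧ Form.IsDeg j a ∧ σ = Form.pull π h.hπ a + κ.d ∧
      (∀ i, j = i + 1 → Form.IsDeg i κ) ∧ (j = 0 → κ = 0) := by
  by_cases hjm : j < m
  · refine h.gysin2 o hψ hm hσ ?_ hj
    by_cases h1 : j + 1 < m
    · exact h.SI_eq_zero o hj h1
    · have h2 : Form.IsDeg 0 (h.SI o σ) := h.isDeg_SI o hj (by omega)
      rw [← h2.part_eq, hη, Form.part_zero_d]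
  · obtain ⟨i, hi⟩ : ∃ i, j = m + i := ⟨j - m, by omega⟩
    have h1 : Form.IsDeg (i + 1) (h.SI o σ) := h.isDeg_SI o hj (by omega)
    have h2 : h.SI o σ = (Form.part i η).d := by
      rw [← h1.part_eq, hη, Form.part_succ_d]
    obtain ⟨τ, hτ⟩ : ∃ τ : Form DS,
      τ = (-1 : ℝ) ^ (m + 1) • (ψ * Form.pull π h.hπ (Form.part i η)) := ⟨_, rfl⟩
    have h3 : Form.IsDeg (m - 1 + i) τ := by
      rw [hτ]
      exact (hψ.deg.mul ((Form.isDeg_part i η).pull π h.hπ)).smul _
    have h4 : h.SI o τ.d = (Form.part i η).d := by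
      rw [h.SI_d o, hτ, h.SI_smul o, h.SI_mul_π o, hψ.one, one_mul, Form.d_smul, smul_smul,
        ← mul_pow]
      norm_num
    have h5 : h.SI o (σ - τ.d) = 0 := by rw [h.SI_sub o, h2, h4, sub_self]
    have h6 : (σ - τ.d).d = 0 := by rw [Form.d_sub, hσ, Form.d_d, sub_zero]
    have h7 : Form.IsDeg j (σ - τ.d) := hj.sub (degc h3.d (by omega))
    obtain ⟨a, κ, k1, k2, k3, k4, k5⟩ := h.gysin2 o hψ hm h6 h5 h7
    refine ⟨a, κ + τ, k1, k2, ?_, fun i' hi' => (k4 i' hi').add (degc h3 (by omega)),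
      fun h0 => absurd h0 (by omega)⟩
    rw [Form.d_add, ← add_assoc, ← k3, sub_add_cancel]

end Gysin

section Ext

variable {Y : Type*} {D₀ : Dif Y} {SA SP ST SO : Set Y}

theorem isDeg_mx {D : Dif Y} {O : Set Y} {θ : Form D} (hθ : θ.Supp O) {σ : Form (D.on O)}
    (h0 : Form.IsDeg 0 θ) {k : ℕ} (hk : Form.IsDeg k σ) : Form.IsDeg k (Form.mx θ hθ σ) := by
  refine Form.ext_val fun E _ _ _ u x hu => ?_
  rw [Form.part_val, Form.mx_val]
  have h1 : WA.prt 0 (θ.val u x) = θ.val u x := by rw [← Form.part_val, h0.part_eq]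
  have h2 : WA.prt k (σ.val u x) = σ.val u x := by rw [← Form.part_val, hk.part_eq]
  have h3 := WA.prt_mul_of_eq h1 h2
  rwa [zero_add] at h3

theorem map_onon_right : ((D₀.on SP).on ST).Map (D₀.on ST) id := fun h => ⟨h.1.1, h.2⟩

/-- extension of a closed form over the complement of `SP` in `SA`: on the tube `ST` it is
`c + d β`, where `c` is defined near the complement. -/
theorem extend (hPA : SP ⊆ SA) {f : Y → ℝ} (hf : (D₀.on SP).Map (Dif.lin ℝ) f)
    (hs : (Form.fn f hf).Supp ST) (hOT : SO ⊆ ST) (h1 : ∀ y ∈ SO, f y = 1)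
    (hc : ∀ {E : Type} [NormedAddCommGroup E] [NormedSpace ℝ E] [FiniteDimensional ℝ E]
      {u : E → Y} {x : E}, (D₀.on SA).At u x →
        ((D₀.on SA).on SP).At u x ∨ ((D₀.on SA).on SO).At u x)
    {om : Form (D₀.on SP)} (hom : om.d = 0) {j : ℕ} (hj : Form.IsDeg j om)
    {c : Form (D₀.on ST)} (hcd : c.d = 0) (hcj : Form.IsDeg j c)
    {β : Form ((D₀.on SP).on ST)}
    (hβ : Form.res ST om = Form.pull id map_onon_right c + β.d) :
    ∃ om' : Form (D₀.on SA), om'.d = 0 ∧
      om = Form.pull id (Dif.map_on_mono hPA) om' + (Form.mx _ hs β).d ∧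
      (Form.IsDeg j (Form.mx _ hs β).d → Form.IsDeg j om') := by
  have m1 : ((D₀.on SA).on SP).Map (D₀.on SP) id := fun h => ⟨h.1.1, h.2⟩
  have m2 : ((D₀.on SA).on SO).Map (D₀.on ST) id := fun h =>
    ⟨h.1.1, h.2.mono fun y hy => hOT hy⟩
  obtain ⟨om₁, hom₁⟩ : ∃ om₁, om₁ = om - (Form.mx _ hs β).d := ⟨_, rfl⟩
  have hab : Form.pull id (Dif.map_on_mono inter_subset_left) (Form.pull id m1 om₁) =
      (Form.pull id (Dif.map_on_mono inter_subset_right) (Form.pull id m2 c) :
        Form ((D₀.on SA).on (SP ∩ SO))) := by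
    refine Form.ext_val fun E _ _ _ u x hu => ?_
    have a1 : ((D₀.on SA).on SP).At u x := ⟨hu.1, hu.2.mono fun y hy => hy.1⟩
    have a2 : ((D₀.on SA).on SO).At u x := ⟨hu.1, hu.2.mono fun y hy => hy.2⟩
    have a3 : (D₀.on SP).At u x := m1 a1
    have a4 : ((D₀.on SP).on ST).At u x := ⟨a3, hu.2.mono fun y hy => hOT hy.2⟩
    have e1 : (Form.pull id (Dif.map_on_mono inter_subset_left) (Form.pull id m1 om₁) :
        Form ((D₀.on SA).on (SP ∩ SO))).val u x = om₁.val u x := by
      rw [Form.pull_val _ _ hu]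
      exact Form.pull_val m1 _ a1
    have e2 : (Form.pull id (Dif.map_on_mono inter_subset_right) (Form.pull id m2 c) :
        Form ((D₀.on SA).on (SP ∩ SO))).val u x = c.val u x := by
      rw [Form.pull_val _ _ hu]
      exact Form.pull_val m2 _ a2
    have e3 : (Form.mx _ hs β).d.val u x = β.d.val u x := by
      rw [Form.d_val _ a3, Form.d_val _ a4]
      refine extd_congr ?_
      filter_upwards [(D₀.on SP).open' a3, hu.2] with y k1 k2
      rw [Form.mx_val, Form.fn_val _ _ k1, h1 _ k2.2, map_one, one_mul]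
    have e4 : (Form.res ST om).val u x = (Form.pull id map_onon_right c + β.d).val u x :=
      congrArg (fun w : Form ((D₀.on SP).on ST) => w.val u x) hβ
    rw [Form.res_val _ a4, Form.add_val, Form.pull_val _ _ a4] at e4
    rw [e1, e2, hom₁, Form.sub_val, e3, e4, add_sub_cancel_right]
    rfl
  have hd₁ : om₁.d = 0 := by rw [hom₁, Form.d_sub, hom, Form.d_d, sub_zero]
  refine ⟨Form.glue _ _ hab hc, ?_, ?_, fun hk => ?_⟩
  · refine Form.ext_cover hc ?_ ?_
    · rw [← Form.res_d, Form.res_glue_left, ← Form.pull_d, hd₁, pull_zero, Form.res_zero]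
    · rw [← Form.res_d, Form.res_glue_right, ← Form.pull_d, hcd, pull_zero, Form.res_zero]
  · have e1 : Form.pull id (Dif.map_on_mono hPA) (Form.glue _ _ hab hc) = om₁ := by
      refine Form.ext_val fun E _ _ _ u x hu => ?_
      have a1 : ((D₀.on SA).on SP).At u x := ⟨⟨hu.1, hu.2.mono fun y hy => hPA hy⟩, hu.2⟩
      rw [Form.pull_val _ _ hu]
      exact (Form.glue_val_left _ _ hab hc a1).trans (Form.pull_val m1 _ a1)
    rw [e1, hom₁, sub_add_cancel]
  · have k1 : Form.IsDeg j om₁ := by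
      rw [hom₁]
      exact hj.sub hk
    refine Form.ext_cover hc ?_ ?_
    · rw [Form.res, ← Form.part_pull]
      change Form.part j (Form.res SP _) = Form.res SP _
      rw [Form.res_glue_left]
      exact k1.pull _ _
    · rw [Form.res, ← Form.part_pull]
      change Form.part j (Form.res SO _) = Form.res SO _
      rw [Form.res_glue_right]
      exact hcj.pull _ _

end Ext

end Vale.Agent.P231Z.Tube
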