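import Vale.Agent.P231Z.Tube.Geo
import Vale.Agent.P231Z.Tube.Abs
import Vale.Agent.P231.CoZ.BunZ

/-! P231, the tube around the cut pairs (4): the spaces of polygons and the tube. -/

set_option maxSynthPendingDepth 3
set_option linter.unusedSectionVars false
set_option linter.unusedVariables false

open Bundle Manifold Set Filter Module MeasureTheory
open scoped ContDiff Manifold Topology

namespace Vale.Agent.P231Z.Tube

open Vale.Agent.P234 Vale.Agent.P231 Vale.Agent.P231.WE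
open Vale.Agent.P231.Fm Vale.Agent.P231.W Vale.Agent.P231.Co Vale.Agent.P231.CoZ

noncomputable section

section Sets

variable {M : Type*} [MetricSpace M] {X : Type*}

/-- open chains: the last step is short -/
def SA (D : ℝ) (p2 : X → M) : Set (X × M) := {y | dist (p2 y.1) y.2 < D}

/-- closed polygons: the closing step is short too -/
def SP (D : ℝ) (p0 p2 : X → M) : Set (X × M) :=
  {y | dist (p2 y.1) y.2 < D ∧ dist (p0 y.1) y.2 < D}

/-- chains from a point to a cut point -/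
def SZ (D : ℝ) (p0 p2 : X → M) : Set (X × M) :=
  {y | dist (p2 y.1) y.2 < D ∧ dist (p0 y.1) y.2 = D}

theorem SP_sub {D : ℝ} {p0 p2 : X → M} : SP D p0 p2 ⊆ SA D p2 := fun _ h => h.1

theorem SZ_sub {D : ℝ} {p0 p2 : X → M} : SZ D p0 p2 ⊆ SA D p2 := fun _ h => h.1

/-- the pair of end points -/
def cutp (p0 : X → M) (y : X × M) : M × M := (p0 y.1, y.2)

/-- the radius of the tube -/
def del (D : ℝ) (p2 : X → M) (y : X × M) : ℝ := (D ^ 2 - dist (p2 y.1) y.2 ^ 2) / (4 * D)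

theorem del_pos {D : ℝ} (hD : 0 < D) {p2 : X → M} {y : X × M} (h : dist (p2 y.1) y.2 < D) :
    0 < del D p2 y := by
  have h1 : 0 ≤ dist (p2 y.1) y.2 := dist_nonneg
  refine div_pos ?_ (by linarith only [hD])
  nlinarith only [h, h1]

theorem del_nonpos {D : ℝ} (hD : 0 < D) {p2 : X → M} {y : X × M} (h : D ≤ dist (p2 y.1) y.2) :
    del D p2 y ≤ 0 := by
  refine div_nonpos_of_nonpos_of_nonneg ?_ (by linarith only [hD])
  nlinarith only [h, hD]

theorem del_le {D : ℝ} (hD : 0 < D) (p2 : X → M) (y : X × M) : del D p2 y ≤ D / 4 := by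
  rw [del, div_le_iff₀ (by linarith only [hD])]
  nlinarith only [sq_nonneg (dist (p2 y.1) y.2)]

theorem add_del_lt {D : ℝ} (hD : 0 < D) {p2 : X → M} {y : X × M} (h : dist (p2 y.1) y.2 < D) :
    dist (p2 y.1) y.2 + del D p2 y < D := by
  have h1 : del D p2 y < D - dist (p2 y.1) y.2 := by
    rw [del, div_lt_iff₀ (by linarith only [hD])]
    nlinarith only [h, hD]
  linarith only [h1]

end Sets

section Difs

variable (E : Type*) [NormedAddCommGroup E] [NormedSpace ℝ E]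
  {M : Type*} [MetricSpace M] [ChartedSpace E M] {X : Type*}

/-- the ambient diffeology -/
abbrev d0 (DX : Dif X) : Dif (X × M) := DX.prod (dM E M)

/-- open chains -/
abbrev dA (DX : Dif X) (D : ℝ) (p2 : X → M) : Dif (X × M) := (d0 E DX).on (SA D p2)

/-- closed polygons -/
abbrev dP (DX : Dif X) (D : ℝ) (p0 p2 : X → M) : Dif (X × M) := (d0 E DX).on (SP D p0 p2)

/-- chains from a point to a cut point -/
abbrev dZ4 (DX : Dif X) (D : ℝ) (p0 p2 : X → M) : Dif (X × M) := (d0 E DX).on (SZ D p0 p2)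

end Difs

variable {E : Type*} [NormedAddCommGroup E] [NormedSpace ℝ E]
  {M : Type*} [MetricSpace M] [ChartedSpace E M]
  [RiemannianBundle (fun x : M => TangentSpace 𝓘(ℝ, E) x)]
  {e : ∀ x : M, TangentSpace 𝓘(ℝ, E) x → M}
  [FiniteDimensional ℝ E] [IsManifold 𝓘(ℝ, E) ∞ M]
  [IsContMDiffRiemannianBundle 𝓘(ℝ, E) ∞ E (fun x : M => TangentSpace 𝓘(ℝ, E) x)]
  [CompactSpace M] [ConnectedSpace M] [IsRiemannianManifold 𝓘(ℝ, E) M]
  {X : Type*} {DX : Dif X} {p0 p2 : X → M}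

/-- the normal sphere bundle of the chains to a cut point -/
abbrev dS (e : ∀ x : M, TangentSpace 𝓘(ℝ, E) x → M) (DX : Dif X) (D : ℝ) (p0 p2 : X → M) :
    Dif ((X × M) × UT E M) :=
  dPb (dZ4 E DX D p0 p2) (dUT E M) (fb e D) (cutp p0)

/-- the parametrisation of the punctured tube -/
def tubeT (e : ∀ x : M, TangentSpace 𝓘(ℝ, E) x → M) (D : ℝ) (p2 : X → M)
    (z : (X × M) × UT E M) (t : ℝ) : X × M :=
  (z.1.1, gm e (z.2, D - t * del D p2 z.1))

/-- the middle of the tube -/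
def tube (e : ∀ x : M, TangentSpace 𝓘(ℝ, E) x → M) (D : ℝ) (p2 : X → M)
    (z : (X × M) × UT E M) : X × M := tubeT e D p2 z (1 / 2)

theorem tubeT_mem (F : Facts e) {D : ℝ} (hD : 0 < D) (hB : InjGE e D) {z : (X × M) × UT E M}
    (hz : z.1 ∈ SZ D p0 p2) (hv : fb e D z.2 = cutp p0 z.1) {t : ℝ} (h0 : 0 < t) (h1 : t ≤ 1) :
    tubeT e D p2 z t ∈ SP D p0 p2 := by
  have k1 : foot z.2 = p0 z.1.1 := congrArg Prod.fst hv
  have k2 : gm e (z.2, D) = z.1.2 := congrArg Prod.snd hv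
  have k3 := del_pos hD hz.1
  have k4 := del_le hD p2 z.1
  have k5 := add_del_lt hD hz.1
  have k6 : 0 < t * del D p2 z.1 := mul_pos h0 k3
  have k7 : t * del D p2 z.1 ≤ del D p2 z.1 := by nlinarith only [h1, k3]
  refine ⟨?_, ?_⟩
  · have j1 := dist_gm_gm F hB z.2 (s := D) (t := D - t * del D p2 z.1)
      (by rw [sub_sub_cancel_left, abs_neg, abs_of_pos k6]; linarith only [k4, k7, hD])
    rw [sub_sub_cancel_left, abs_neg, abs_of_pos k6, k2] at j1
    have j2 := dist_triangle (p2 z.1.1) z.1.2 (gm e (z.2, D - t * del D p2 z.1))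
    change dist (p2 z.1.1) (gm e (z.2, D - t * del D p2 z.1)) < D
    linarith only [j1, j2, k5, k7]
  · have j0 : 0 < D - t * del D p2 z.1 := by linarith only [k4, k7, hD]
    have j1 := dist_foot_gm hB z.2 (t := D - t * del D p2 z.1)
      (by rw [abs_of_pos j0]; linarith only [k6])
    rw [abs_of_pos j0, k1] at j1
    change dist (p0 z.1.1) (gm e (z.2, D - t * del D p2 z.1)) < D
    linarith only [j1, k6]

section Maps

variable (F : Facts e) {D : ℝ} (hD : 0 < D) (hB : InjGE e D) (hdiam : ∀ p q : M, dist p q ≤ D)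
  {l : ℕ} (hl : ∀ x y : M, dist x y = D → finrank ℝ (H775.Pl e D x y) = l + 1)
  (hp0 : DX.Map (dM E M) p0) (hp2 : DX.Map (dM E M) p2)

include F hD hB hdiam hl hp0 in
theorem map_cutp : (dZ4 E DX D p0 p2).Map (CoZ.dZ e D) (cutp p0) := by
  intro V _ _ _ u x hu
  obtain ⟨v, h1, h2⟩ := exists_At_lift F hD hB hdiam hl (hp0 hu.1.1) hu.1.2
    (hu.2.mono fun y hy => hy.2)
  exact ⟨v, h2.mono fun y hy => Prod.ext hy.1 hy.2, h1⟩

include F hB hp2 in
theorem sm_del {V : Type} [NormedAddCommGroup V] [NormedSpace ℝ V] [FiniteDimensional ℝ V]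
    {u : V → X × M} {x : V} (hu : (d0 E DX).At u x) (h : dist (p2 (u x).1) (u x).2 < D) :
    Sm (fun y => del D p2 (u y)) x := by
  filter_upwards [sm_dist_sq F hB (hp2 hu.1) hu.2 h] with y hy
  exact (contDiffAt_const.sub hy).div_const _

include F hD hB hp2 in
theorem At_tubeT {V : Type} [NormedAddCommGroup V] [NormedSpace ℝ V] [FiniteDimensional ℝ V]
    {u : V → (X × M) × UT E M} {t : V → ℝ} {x : V} (hu : (dS e DX D p0 p2).At u x)
    (ht : Sm t x) (h01 : ∀ᶠ y in 𝓝 x, 0 < t y ∧ t y ≤ 1) :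
    (dP E DX D p0 p2).At (fun y => tubeT e D p2 (u y) (t y)) x := by
  have h1 : Sm (fun y => del D p2 (u y).1) x :=
    sm_del F hB hp2 hu.1.1.1 hu.1.1.2.self_of_nhds.1
  have h2 : Sm (fun y => D - t y * del D p2 (u y).1) x := by
    filter_upwards [ht, h1] with y k1 k2
    exact contDiffAt_const.sub (k1.mul k2)
  have h3 : ((dUT E M).prod (Dif.lin ℝ)).At
      (fun y => ((u y).2, D - t y * del D p2 (u y).1)) x := ⟨hu.1.2, h2⟩
  refine ⟨⟨hu.1.1.1.1, map_gm F h3⟩, ?_⟩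
  filter_upwards [hu.1.1.2, hu.2, h01] with y k1 k2 k3
  exact tubeT_mem F hD hB k1 k2 k3.1 k3.2

include F hD hB hp2 in
theorem map_tube : (dS e DX D p0 p2).Map (dP E DX D p0 p2) (tube e D p2) := by
  intro V _ _ _ u x hu
  exact At_tubeT F hD hB hp2 (t := fun _ => 1 / 2) hu (Sm.of_contDiff contDiff_const _)
    (Eventually.of_forall fun _ => by norm_num)

variable {Fr : Type*} {DF : Dif Fr} {Fv : Type} [NormedAddCommGroup Fv] [InnerProductSpace ℝ Fv]
  [FiniteDimensional ℝ Fv] [MeasurableSpace Fv] [BorelSpace Fv] {m : ℕ}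
  {q : Fr → M × M} {ev : Fr × Fv → UT E M}

/-- the residue along the chains to a cut point -/
def Res4 (h : Co.Bun (CoZ.dZ e D) (dUT E M) DF Fv (fb e D) q ev)
    (o : OrthonormalBasis (Fin m) ℝ Fv) (om : Form (dP E DX D p0 p2)) :
    Form (dZ4 E DX D p0 p2) :=
  (h.pb (map_cutp F hD hB hdiam hl hp0)).SI o
    (Form.pull (tube e D p2) (map_tube F hD hB hp2) om)

variable (h : Co.Bun (CoZ.dZ e D) (dUT E M) DF Fv (fb e D) q ev)
  (o : OrthonormalBasis (Fin m) ℝ Fv)

theorem Res4_add (v w : Form (dP E DX D p0 p2)) :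
    Res4 F hD hB hdiam hl hp0 hp2 h o (v + w) =
      Res4 F hD hB hdiam hl hp0 hp2 h o v + Res4 F hD hB hdiam hl hp0 hp2 h o w := by
  unfold Res4
  rw [Co.pull_add (map_tube F hD hB hp2), Bun.SI_add]

theorem Res4_sub (v w : Form (dP E DX D p0 p2)) :
    Res4 F hD hB hdiam hl hp0 hp2 h o (v - w) =
      Res4 F hD hB hdiam hl hp0 hp2 h o v - Res4 F hD hB hdiam hl hp0 hp2 h o w := by
  unfold Res4
  rw [Co.pull_sub (map_tube F hD hB hp2), Bun.SI_sub]

theorem Res4_smul (c : ℝ) (w : Form (dP E DX D p0 p2)) :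
    Res4 F hD hB hdiam hl hp0 hp2 h o (c • w) = c • Res4 F hD hB hdiam hl hp0 hp2 h o w := by
  unfold Res4
  rw [Co.pull_smul (map_tube F hD hB hp2), Bun.SI_smul]

theorem Res4_d (w : Form (dP E DX D p0 p2)) :
    Res4 F hD hB hdiam hl hp0 hp2 h o w.d =
      (-1 : ℝ) ^ (m + 1) • (Res4 F hD hB hdiam hl hp0 hp2 h o w).d := by
  unfold Res4
  rw [Form.pull_d _ (map_tube F hD hB hp2), Bun.SI_d]

theorem isDeg_Res4 {w : Form (dP E DX D p0 p2)} {j k : ℕ} (hw : Form.IsDeg j w)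
    (hj : j + 1 = k + m) : Form.IsDeg k (Res4 F hD hB hdiam hl hp0 hp2 h o w) :=
  Bun.isDeg_SI _ o (hw.pull _ (map_tube F hD hB hp2)) hj

theorem Res4_eq_zero {w : Form (dP E DX D p0 p2)} {j : ℕ} (hw : Form.IsDeg j w)
    (hj : j + 1 < m) : Res4 F hD hB hdiam hl hp0 hp2 h o w = 0 :=
  Bun.SI_eq_zero _ o (hw.pull _ (map_tube F hD hB hp2)) hj

end Maps

end

end Vale.Agent.P231Z.Tube
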