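import Vale.Agent.P231Z.Tube.Defs

/-! P231, the tube around the cut pairs (5): a closed form on the polygons whose residue is exact
extends to the open chains, up to an exact form. -/

set_option maxSynthPendingDepth 3
set_option linter.unusedSectionVars false
set_option linter.unusedVariables false

open Bundle Manifold Set Filter Module MeasureTheory
open scoped ContDiff Manifold Topology

namespace Vale.Agent.P231Z.Tube

open Vale.Agent.P234 Vale.Agent.P231 Vale.Agent.P231.WE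
open Vale.Agent.P231.Fm Vale.Agent.P231.W Vale.Agent.P231.Co Vale.Agent.P231.CoZ

noncomputable section

variable {E : Type*} [NormedAddCommGroup E] [NormedSpace ℝ E]
  {M : Type*} [MetricSpace M] [ChartedSpace E M]
  [RiemannianBundle (fun x : M => TangentSpace 𝓘(ℝ, E) x)]
  {e : ∀ x : M, TangentSpace 𝓘(ℝ, E) x → M}
  [FiniteDimensional ℝ E] [IsManifold 𝓘(ℝ, E) ∞ M]
  [IsContMDiffRiemannianBundle 𝓘(ℝ, E) ∞ E (fun x : M => TangentSpace 𝓘(ℝ, E) x)]
  [CompactSpace M] [ConnectedSpace M] [IsRiemannianManifold 𝓘(ℝ, E) M]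
  {X : Type*} {DX : Dif X} {p0 p2 : X → M}

/-- the projection of the tube -/
def prj (e : ∀ x : M, TangentSpace 𝓘(ℝ, E) x → M) (D : ℝ) (p0 : X → M) (y : X × M) : X × M :=
  (y.1, cutPt e D (p0 y.1) y.2)

/-- the tube -/
def ST (e : ∀ x : M, TangentSpace 𝓘(ℝ, E) x → M) (D : ℝ) (p0 p2 : X → M) : Set (X × M) :=
  {y | p0 y.1 ≠ y.2 ∧ dist (p2 y.1) (cutPt e D (p0 y.1) y.2) < D ∧
    D - dist (p0 y.1) y.2 < del D p2 (prj e D p0 y)}

/-- the inner tube -/
def SO (e : ∀ x : M, TangentSpace 𝓘(ℝ, E) x → M) (D : ℝ) (p0 p2 : X → M) : Set (X × M) :=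
  {y | y ∈ ST e D p0 p2 ∧ D - dist (p0 y.1) y.2 < del D p2 (prj e D p0 y) / 3}

/-- the radial coordinate in the tube -/
def rat (e : ∀ x : M, TangentSpace 𝓘(ℝ, E) x → M) (D : ℝ) (p0 p2 : X → M) (y : X × M) : ℝ :=
  (D - dist (p0 y.1) y.2) / del D p2 (prj e D p0 y)

open Classical in
/-- the cut-off function of the tube -/
def bump (e : ∀ x : M, TangentSpace 𝓘(ℝ, E) x → M) (D : ℝ) (p0 p2 : X → M) (y : X × M) : ℝ :=
  if y ∈ ST e D p0 p2 then Real.smoothTransition (2 - 3 * rat e D p0 p2 y) else 0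

/-- the point of the sphere bundle of a point of the punctured tube -/
def rS (e : ∀ x : M, TangentSpace 𝓘(ℝ, E) x → M) (D : ℝ) (p0 : X → M) (v₀ : UT E M)
    (y : X × M) : (X × M) × UT E M := (prj e D p0 y, dirU e v₀ (p0 y.1) y.2)

/-- the radial homotopy in the punctured tube -/
def hT (e : ∀ x : M, TangentSpace 𝓘(ℝ, E) x → M) (D : ℝ) (p0 p2 : X → M) (v₀ : UT E M)
    (z : (X × M) × ℝ) : X × M :=
  tubeT e D p2 (rS e D p0 v₀ z.1)
    (Real.smoothTransition z.2 * rat e D p0 p2 z.1 + (1 - Real.smoothTransition z.2) / 2)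

theorem bump_eq_one {D : ℝ} (hD : 0 < D) {y : X × M} (hy : y ∈ SO e D p0 p2) :
    bump e D p0 p2 y = 1 := by
  have h1 : 0 < del D p2 (prj e D p0 y) := del_pos hD hy.1.2.1
  have h2 : rat e D p0 p2 y < 1 / 3 := by
    rw [rat, div_lt_iff₀ h1]
    linarith only [hy.2]
  rw [bump, if_pos hy.1]
  exact Real.smoothTransition.one_of_one_le (by linarith only [h2])

section Maps

variable (F : Facts e) {D : ℝ} (hD : 0 < D) (hB : InjGE e D) (hdiam : ∀ p q : M, dist p q ≤ D)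
  {l : ℕ} (hl : ∀ x y : M, dist x y = D → finrank ℝ (H775.Pl e D x y) = l + 1)
  (hp0 : DX.Map (dM E M) p0) (hp2 : DX.Map (dM E M) p2)

section Plot

variable {V : Type} [NormedAddCommGroup V] [NormedSpace ℝ V] [FiniteDimensional ℝ V]
  {u : V → X × M} {x : V}

include hp0 in
theorem cont_d (hu : (d0 E DX).At u x) : ContinuousAt (fun y => dist (p0 (u y).1) (u y).2) x :=
  (At_cont (hp0 hu.1)).dist (At_cont hu.2)

include F hD hB hdiam hl hp0 in
theorem At_prj (hu : (d0 E DX).At u x) (hne : p0 (u x).1 ≠ (u x).2) :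
    (d0 E DX).At (fun y => prj e D p0 (u y)) x :=
  ⟨hu.1, At_cutPt F hD hB hdiam hl (hp0 hu.1) hu.2 hne⟩

include F hD hB hdiam hl hp0 hp2 in
theorem cont_c (hu : (d0 E DX).At u x) (hne : p0 (u x).1 ≠ (u x).2) :
    ContinuousAt (fun y => dist (p2 (u y).1) (cutPt e D (p0 (u y).1) (u y).2)) x :=
  (At_cont (hp2 hu.1)).dist (At_cont (At_prj F hD hB hdiam hl hp0 hu hne).2)

include F hD hB hdiam hl hp0 hp2 in
theorem cont_del (hu : (d0 E DX).At u x) (hne : p0 (u x).1 ≠ (u x).2) :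
    ContinuousAt (fun y => del D p2 (prj e D p0 (u y))) x :=
  (continuousAt_const.sub ((cont_c F hD hB hdiam hl hp0 hp2 hu hne).pow 2)).div_const _

include F hD hB hdiam hl hp0 hp2 in
theorem ev_ST (hu : (d0 E DX).At u x) (hx : u x ∈ ST e D p0 p2) :
    ∀ᶠ y in 𝓝 x, u y ∈ ST e D p0 p2 := by
  have h1 := (cont_d hp0 hu).eventually (lt_mem_nhds (dist_pos.2 hx.1))
  have h2 := (cont_c F hD hB hdiam hl hp0 hp2 hu hx.1).eventually (gt_mem_nhds hx.2.1)
  have h3 := ((continuousAt_const (y := D)).sub (cont_d hp0 hu)).eventually_lt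
    (cont_del F hD hB hdiam hl hp0 hp2 hu hx.1) hx.2.2
  filter_upwards [h1, h2, h3] with y k1 k2 k3
  exact ⟨dist_pos.1 k1, k2, k3⟩

include F hD hB hdiam hl hp0 hp2 in
theorem sm_rat (hu : (d0 E DX).At u x) (hx : u x ∈ ST e D p0 p2)
    (hx' : dist (p0 (u x).1) (u x).2 < D) : Sm (fun y => rat e D p0 p2 (u y)) x := by
  have h1 := sm_dist F hB (hp0 hu.1) hu.2 hx' hx.1
  have h2 := sm_del F hB hp2 (At_prj F hD hB hdiam hl hp0 hu hx.1) hx.2.1
  filter_upwards [h1, h2, ev_ST F hD hB hdiam hl hp0 hp2 hu hx] with y k1 k2 k3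
  exact (contDiffAt_const.sub k1).div k2 (del_pos hD k3.2.1).ne'

include F hD hB hdiam hl hp0 hp2 in
theorem ev_bump (hu : (d0 E DX).At u x) (hx : u x ∉ ST e D p0 p2)
    (hx' : dist (p0 (u x).1) (u x).2 < D) : ∀ᶠ y in 𝓝 x, bump e D p0 p2 (u y) = 0 := by
  by_cases hne : p0 (u x).1 = (u x).2
  · have h1 : dist (p0 (u x).1) (u x).2 < D / 2 := by
      rw [hne, dist_self]
      linarith only [hD]
    filter_upwards [(cont_d hp0 hu).eventually (gt_mem_nhds h1)] with y hy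
    refine if_neg fun h2 => ?_
    have h3 := del_le hD p2 (prj e D p0 (u y))
    have h4 := h2.2.2
    linarith only [h3, h4, hy, hD]
  · have h1 : 2 / 3 * del D p2 (prj e D p0 (u x)) < D - dist (p0 (u x).1) (u x).2 := by
      by_cases h2 : dist (p2 (u x).1) (cutPt e D (p0 (u x).1) (u x).2) < D
      · have h3 : del D p2 (prj e D p0 (u x)) ≤ D - dist (p0 (u x).1) (u x).2 :=
          not_lt.1 fun h4 => hx ⟨hne, h2, h4⟩
        have h4 : 0 < del D p2 (prj e D p0 (u x)) := del_pos hD h2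
        linarith only [h3, h4]
      · have h3 : del D p2 (prj e D p0 (u x)) ≤ 0 := del_nonpos hD (not_lt.1 h2)
        linarith only [h3, hx']
    have h2 := (continuousAt_const.mul (cont_del F hD hB hdiam hl hp0 hp2 hu hne)).eventually_lt
      ((continuousAt_const (y := D)).sub (cont_d hp0 hu)) h1
    filter_upwards [h2] with y hy
    by_cases h3 : u y ∈ ST e D p0 p2
    · have h4 : 0 < del D p2 (prj e D p0 (u y)) := del_pos hD h3.2.1
      have h5 : 2 / 3 < rat e D p0 p2 (u y) := by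
        rw [rat, lt_div_iff₀ h4]
        exact hy
      rw [bump, if_pos h3]
      exact Real.smoothTransition.zero_of_nonpos (by linarith only [h5])
    · exact if_neg h3

end Plot

include F hD hB hdiam hl hp0 hp2 in
theorem map_bump : (dP E DX D p0 p2).Map (Dif.lin ℝ) (bump e D p0 p2) := by
  intro V _ _ _ u x hu
  have hx' : dist (p0 (u x).1) (u x).2 < D := hu.2.self_of_nhds.2
  by_cases hx : u x ∈ ST e D p0 p2
  · have h1 : Sm (fun y => Real.smoothTransition (2 - 3 * rat e D p0 p2 (u y))) x := by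
      filter_upwards [sm_rat F hD hB hdiam hl hp0 hp2 hu.1 hx hx'] with y hy
      exact Real.smoothTransition.contDiff.contDiffAt.comp y
        (contDiffAt_const.sub (contDiffAt_const.mul hy))
    refine h1.congr ?_
    filter_upwards [ev_ST F hD hB hdiam hl hp0 hp2 hu.1 hx] with y hy
    exact (if_pos hy).symm
  · refine (Sm.of_contDiff (contDiff_const (c := (0 : ℝ))) x).congr ?_
    filter_upwards [ev_bump F hD hB hdiam hl hp0 hp2 hu.1 hx hx'] with y hy
    exact hy.symm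

theorem supp_bump : (Form.fn (bump e D p0 p2) (map_bump F hD hB hdiam hl hp0 hp2)).Supp
    (ST e D p0 p2) := by
  refine ⟨fun {V} _ _ _ {u x} hu => ?_⟩
  by_cases hx : u x ∈ ST e D p0 p2
  · exact Or.inl (ev_ST F hD hB hdiam hl hp0 hp2 hu.1 hx)
  · refine Or.inr ?_
    filter_upwards [ev_bump F hD hB hdiam hl hp0 hp2 hu.1 hx hu.2.self_of_nhds.2,
      (dP E DX D p0 p2).open' hu] with y k1 k2
    rw [Form.fn_val _ _ k2, k1, map_zero]

include F hD hB hdiam hl hp0 hp2 in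
theorem cover {V : Type} [NormedAddCommGroup V] [NormedSpace ℝ V] [FiniteDimensional ℝ V]
    {u : V → X × M} {x : V} (hu : (dA E DX D p2).At u x) :
    ((dA E DX D p2).on (SP D p0 p2)).At u x ∨ ((dA E DX D p2).on (SO e D p0 p2)).At u x := by
  rcases lt_or_eq_of_le (hdiam (p0 (u x).1) (u x).2) with h | h
  · refine Or.inl ⟨hu, ?_⟩
    filter_upwards [hu.2, (cont_d hp0 hu.1).eventually (gt_mem_nhds h)] with y k1 k2
    exact ⟨k1, k2⟩
  · have hne : p0 (u x).1 ≠ (u x).2 := by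
      intro h1
      rw [h1, dist_self] at h
      exact hD.ne h
    have h1 : dist (p2 (u x).1) (cutPt e D (p0 (u x).1) (u x).2) < D := by
      rw [cutPt_of_eq h]
      exact hu.2.self_of_nhds
    have h2 : 0 < del D p2 (prj e D p0 (u x)) := del_pos hD h1
    have h3 : u x ∈ ST e D p0 p2 := ⟨hne, h1, by rw [h, sub_self]; exact h2⟩
    have h4 : D - dist (p0 (u x).1) (u x).2 < del D p2 (prj e D p0 (u x)) / 3 := by
      rw [h, sub_self]
      linarith only [h2]
    have h5 := ((continuousAt_const (y := D)).sub (cont_d hp0 hu.1)).eventually_lt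
      ((cont_del F hD hB hdiam hl hp0 hp2 hu.1 hne).div_const 3) h4
    refine Or.inr ⟨hu, ?_⟩
    filter_upwards [ev_ST F hD hB hdiam hl hp0 hp2 hu.1 h3, h5] with y k1 k2
    exact ⟨k1, k2⟩

include F hD hB hdiam hl hp0 in
theorem map_prj : ((d0 E DX).on (ST e D p0 p2)).Map (dZ4 E DX D p0 p2) (prj e D p0) := by
  intro V _ _ _ u x hu
  refine ⟨At_prj F hD hB hdiam hl hp0 hu.1 hu.2.self_of_nhds.1, ?_⟩
  filter_upwards [hu.2] with y hy
  exact ⟨hy.2.1, dist_cutPt F hD hB hdiam hy.1⟩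

include F hD hB hdiam hl hp0 in
theorem map_rS (v₀ : UT E M) : ((d0 E DX).on (SP D p0 p2 ∩ ST e D p0 p2)).Map
    (dS e DX D p0 p2) (rS e D p0 v₀) := by
  intro V _ _ _ u x hu
  have h1 : ((d0 E DX).on (ST e D p0 p2)).At u x := ⟨hu.1, hu.2.mono fun y hy => hy.2⟩
  refine ⟨⟨map_prj F hD hB hdiam hl hp0 h1, At_dirU F hB v₀ (hp0 hu.1.1) hu.1.2
    hu.2.self_of_nhds.1.2 hu.2.self_of_nhds.2.1⟩, ?_⟩
  filter_upwards [hu.2] with y hy
  exact Prod.ext (foot_dirU F hB v₀ hy.1.2 hy.2.1) (bar_dirU F hB v₀ hy.1.2 hy.2.1)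

include hD in
theorem rat_mem {y : X × M} (hy : y ∈ SP D p0 p2 ∩ ST e D p0 p2) :
    0 < rat e D p0 p2 y ∧ rat e D p0 p2 y < 1 := by
  have h1 : 0 < del D p2 (prj e D p0 y) := del_pos hD hy.2.2.1
  refine ⟨div_pos (sub_pos.2 hy.1.2) h1, ?_⟩
  rw [rat, div_lt_one h1]
  exact hy.2.2.2

include F hD hB hdiam hl hp0 hp2 in
theorem map_hT (v₀ : UT E M) :
    (((d0 E DX).on (SP D p0 p2 ∩ ST e D p0 p2)).prod (Dif.lin ℝ)).Map (dP E DX D p0 p2)
      (hT e D p0 p2 v₀) := by
  intro V _ _ _ u x hu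
  have h1 := map_rS F hD hB hdiam hl hp0 v₀ hu.1
  have h2 : Sm (fun y => (u y).2) x := hu.2
  have h3 := sm_rat F hD hB hdiam hl hp0 hp2 hu.1.1 hu.1.2.self_of_nhds.2
    hu.1.2.self_of_nhds.1.2
  refine At_tubeT F hD hB hp2 (u := fun y => rS e D p0 v₀ (u y).1)
    (t := fun y => Real.smoothTransition (u y).2 * rat e D p0 p2 (u y).1 +
      (1 - Real.smoothTransition (u y).2) / 2) h1 ?_ ?_
  · filter_upwards [h2, h3] with y k1 k2
    have k3 : ContDiffAt ℝ ∞ (fun y => Real.smoothTransition (u y).2) y :=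
      Real.smoothTransition.contDiff.contDiffAt.comp y k1
    exact (k3.mul k2).add ((contDiffAt_const.sub k3).div_const _)
  · filter_upwards [hu.1.2] with y hy
    obtain ⟨k1, k2⟩ := rat_mem hD hy
    have k3 := Real.smoothTransition.nonneg (u y).2
    have k4 := Real.smoothTransition.le_one (u y).2
    constructor
    · rcases eq_or_lt_of_le k3 with k5 | k5
      · rw [← k5]
        norm_num
      · have k6 := mul_pos k5 k1
        linarith only [k6, k4]
    · nlinarith only [k1, k2, k3, k4]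

include F hD hB in
theorem hT_one (v₀ : UT E M) {y : X × M} (hy : y ∈ SP D p0 p2 ∩ ST e D p0 p2) :
    hT e D p0 p2 v₀ (y, 1) = y := by
  have h1 : 0 < del D p2 (prj e D p0 y) := del_pos hD hy.2.2.1
  have h2 : D - (Real.smoothTransition 1 * rat e D p0 p2 y + (1 - Real.smoothTransition 1) / 2) *
      del D p2 (prj e D p0 y) = dist (p0 y.1) y.2 := by
    rw [Real.smoothTransition.one, rat]
    field_simp
    ring
  refine Prod.ext rfl ?_
  change gm e (dirU e v₀ (p0 y.1) y.2, D - (Real.smoothTransition 1 * rat e D p0 p2 y +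
    (1 - Real.smoothTransition 1) / 2) * del D p2 (prj e D p0 y)) = y.2
  rw [h2]
  exact gm_dirU F hB v₀ hy.1.2 hy.2.1

theorem hT_zero (v₀ : UT E M) (y : X × M) :
    hT e D p0 p2 v₀ (y, 0) = tube e D p2 (rS e D p0 v₀ y) := by
  have h2 : Real.smoothTransition 0 * rat e D p0 p2 y + (1 - Real.smoothTransition 0) / 2 =
      1 / 2 := by
    rw [Real.smoothTransition.zero]
    ring
  rw [hT, tube]
  exact congrArg _ h2

variable {Fr : Type*} {DF : Dif Fr} {Fv : Type} [NormedAddCommGroup Fv] [InnerProductSpace ℝ Fv]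
  [FiniteDimensional ℝ Fv] [MeasurableSpace Fv] [BorelSpace Fv] {m : ℕ}
  {q : Fr → M × M} {ev : Fr × Fv → UT E M}

/-- **gluing**: a closed form on the polygons with exact residue extends to the open chains -/
theorem glue (v₀ : UT E M) (h : Co.Bun (CoZ.dZ e D) (dUT E M) DF Fv (fb e D) q ev)
    (o : OrthonormalBasis (Fin m) ℝ Fv) {ψ : Form (dUT E M)} {ε : Form (CoZ.dZ e D)}
    (hψ : h.Ang o ψ ε) (hm : 0 < m) {om : Form (dP E DX D p0 p2)} (hom : om.d = 0) {j : ℕ}
    (hj : Form.IsDeg j om) {η : Form (dZ4 E DX D p0 p2)}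
    (hη : Res4 F hD hB hdiam hl hp0 hp2 h o om = η.d) :
    ∃ (om' : Form (dA E DX D p2)) (κ : Form (dP E DX D p0 p2)), om'.d = 0 ∧ Form.IsDeg j om' ∧
      om = Form.pull id (Dif.map_on_mono SP_sub) om' + κ.d ∧
      (∀ i, j = i + 1 → Form.IsDeg i κ) ∧ (j = 0 → κ = 0) := by
  have mc : (dZ4 E DX D p0 p2).Map (CoZ.dZ e D) (cutp p0) := map_cutp F hD hB hdiam hl hp0
  have mt : (dS e DX D p0 p2).Map (dP E DX D p0 p2) (tube e D p2) := map_tube F hD hB hp2
  have mr : ((d0 E DX).on (SP D p0 p2 ∩ ST e D p0 p2)).Map (dS e DX D p0 p2)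
      (rS e D p0 v₀) := map_rS F hD hB hdiam hl hp0 v₀
  have mh : (((d0 E DX).on (SP D p0 p2 ∩ ST e D p0 p2)).prod (Dif.lin ℝ)).Map (dP E DX D p0 p2)
      (hT e D p0 p2 v₀) := map_hT F hD hB hdiam hl hp0 hp2 v₀
  have mp : ((d0 E DX).on (ST e D p0 p2)).Map (dZ4 E DX D p0 p2) (prj e D p0) :=
    map_prj F hD hB hdiam hl hp0
  obtain ⟨a, κ₁, a1, a2, a3, a4, a5⟩ := gysin_exact o (h.pb mc) (ang_pb o h mc hψ) hm
    (σ := Form.pull (tube e D p2) mt om) (by rw [← Form.pull_d, hom, pull_zero])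
    (hj.pull _ mt) hη
  have mi : ((d0 E DX).on (SP D p0 p2 ∩ ST e D p0 p2)).Map (dP E DX D p0 p2) id :=
    Dif.map_on_mono inter_subset_left
  have mtr : ((d0 E DX).on (SP D p0 p2 ∩ ST e D p0 p2)).Map (dP E DX D p0 p2)
      (tube e D p2 ∘ rS e D p0 v₀) := Dif.Map.comp mt mr
  have b1 := Form.pull_homotopic mh mi mtr (fun y hy => hT_one F hD hB v₀ hy)
    (fun y hy => hT_zero v₀ y) hom
  rw [Form.pull_comp mr mt mtr, a3, pull_add, Form.pull_d] at b1
  have mj : (((d0 E DX).on (SP D p0 p2)).on (ST e D p0 p2)).Map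
      ((d0 E DX).on (SP D p0 p2 ∩ ST e D p0 p2)) id := fun k => ⟨k.1.1, k.1.2.and k.2⟩
  obtain ⟨β₀, hβ₀⟩ : ∃ β₀, β₀ = Form.pull (rS e D p0 v₀) mr κ₁ +
    Form.K (Form.pull (hT e D p0 p2 v₀) mh om) := ⟨_, rfl⟩
  have b2 : Form.pull id mi om = Form.pull (rS e D p0 v₀) mr
      (Form.pull Prod.fst (h.pb mc).hπ a) + β₀.d := by
    rw [hβ₀, Form.d_add, ← b1]
    abel
  have b3 : Form.res (ST e D p0 p2) om =
      Form.pull id map_onon_right (Form.pull (prj e D p0) mp a) + (Form.pull id mj β₀).d := by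
    rw [← Form.pull_d]
    refine Form.ext_val fun V _ _ _ u x hu => ?_
    have c1 : (Form.pull id mi om).val u x = (Form.pull (rS e D p0 v₀) mr
        (Form.pull Prod.fst (h.pb mc).hπ a) + β₀.d).val u x :=
      congrArg (fun w : Form ((d0 E DX).on (SP D p0 p2 ∩ ST e D p0 p2)) => w.val u x) b2
    have c2 : ((d0 E DX).on (SP D p0 p2 ∩ ST e D p0 p2)).At u x := mj hu
    rw [Form.pull_val mi _ c2, Form.add_val, Form.pull_val mr _ c2,
      Form.pull_val _ _ (mr c2)] at c1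
    have c3 : ((d0 E DX).on (ST e D p0 p2)).At (id ∘ u) x := map_onon_right hu
    rw [Form.res_val _ hu, Form.add_val, Form.pull_val _ _ hu, Form.pull_val mj _ hu,
      Form.pull_val mp _ c3]
    exact c1
  obtain ⟨om', k1, k2, k3⟩ := extend SP_sub (map_bump F hD hB hdiam hl hp0 hp2)
    (supp_bump F hD hB hdiam hl hp0 hp2) (SO := SO e D p0 p2) (fun y hy => hy.1)
    (fun y hy => bump_eq_one hD hy) (cover F hD hB hdiam hl hp0 hp2) hom hj
    (c := Form.pull (prj e D p0) mp a) (by rw [← Form.pull_d, a1, pull_zero]) (a2.pull _ mp) b3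
  have d1 : ∀ i, j = i + 1 → Form.IsDeg i (Form.mx _ (supp_bump F hD hB hdiam hl hp0 hp2)
      (Form.pull id mj β₀)) := by
    rintro i rfl
    refine isDeg_mx _ (Form.isDeg_fn _ _) (Form.IsDeg.pull ?_ _ mj)
    rw [hβ₀]
    exact ((a4 i rfl).pull _ mr).add (hj.pull _ mh).K
  have d2 : j = 0 → Form.mx _ (supp_bump F hD hB hdiam hl hp0 hp2) (Form.pull id mj β₀) = 0 := by
    rintro rfl
    rw [hβ₀, a5 rfl, pull_zero, (hj.pull _ mh).K_zero, add_zero, pull_zero, Form.mx_zero]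
  refine ⟨om', _, k1, k3 ?_, k2, d1, d2⟩
  rcases Nat.eq_zero_or_eq_succ_pred j with h0 | h0
  · rw [d2 h0, Form.d_zero]
    exact Form.IsDeg.zero j
  · exact degc (d1 _ h0).d h0.symm

end Maps

end

end Vale.Agent.P231Z.Tube
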