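import Vale.Agent.P231.WE.PolarLog

/-! P231, the tube around the cut pairs (1): polar coordinates near the cut locus of a moving
point. -/

set_option maxSynthPendingDepth 3
set_option linter.unusedSectionVars false
set_option linter.unusedVariables false

open Bundle Manifold Set Filter Module
open scoped ContDiff Manifold Topology

namespace Vale.Agent.P231Z.Tube

open Vale.Agent.P234 Vale.Agent.P231 Vale.Agent.P231.H775 Vale.Agent.P231.WE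

noncomputable section

section Square

variable {V X Y : Type*} [NormedAddCommGroup V] [NormedSpace ℝ V] [CompleteSpace V]
  [NormedAddCommGroup X] [NormedSpace ℝ X] [FiniteDimensional ℝ X]
  [NormedAddCommGroup Y] [NormedSpace ℝ Y] [FiniteDimensional ℝ Y]

/-- the implicit function theorem for square systems -/
theorem square (hdim : finrank ℝ X = finrank ℝ Y) {Φ : V × X → Y} {s0 : V} {ξ0 : X}
    (hΦ : ∀ᶠ p in 𝓝 (s0, ξ0), ContDiffAt ℝ ∞ Φ p) (h0 : Φ (s0, ξ0) = 0)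
    (hinj : ∀ η, fderiv ℝ Φ (s0, ξ0) (0, η) = 0 → η = 0) :
    ∃ h : V → X, h s0 = ξ0 ∧ (∀ᶠ s in 𝓝 s0, ContDiffAt ℝ ∞ h s ∧ Φ (s, h s) = 0) ∧
      (∀ᶠ p in 𝓝 (s0, ξ0), Φ p = 0 → h p.1 = p.2) := by
  refine overdet hΦ h0 hinj ?_
  set A : X →ₗ[ℝ] Y := (fderiv ℝ Φ (s0, ξ0)).toLinearMap ∘ₗ LinearMap.inr ℝ V X with hA
  have hker : LinearMap.ker A = ⊥ := by
    rw [LinearMap.ker_eq_bot']
    intro η hη
    exact hinj η hη
  obtain ⟨L, hL⟩ := A.exists_leftInverse_of_injective hker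
  have hAs : Function.Surjective A :=
    (LinearMap.injective_iff_surjective_of_finrank_eq_finrank hdim).1
      (LinearMap.ker_eq_bot.1 hker)
  have hLi : ∀ y, L y = 0 → y = 0 := by
    intro y hy
    obtain ⟨x, rfl⟩ := hAs y
    have h1 : L (A x) = x := LinearMap.congr_fun hL x
    rw [h1] at hy
    rw [hy, map_zero]
  set Lc : Y →L[ℝ] X := LinearMap.toContinuousLinearMap L with hLc
  set Ψ : V × X → V × X := fun p => (p.1, Lc (Φ p)) with hΨ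
  have hΨs : ∀ᶠ q in 𝓝 (s0, ξ0), ContDiffAt ℝ ∞ Ψ q := by
    filter_upwards [hΦ] with q hq
    exact contDiffAt_fst.prodMk (Lc.contDiff.contDiffAt.comp q hq)
  have hΦd := hΦ.self_of_nhds.differentiableAt (by simp : (∞ : WithTop ℕ∞) ≠ 0)
  set T : V × X →L[ℝ] X := Lc.comp (fderiv ℝ Φ (s0, ξ0)) with hT
  have hT0 : ∀ η, T (0, η) = η := by
    intro η
    exact LinearMap.congr_fun hL η
  have hTs : ∀ q : V × X, T q = T (q.1, 0) + q.2 := by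
    intro q
    have : q = (q.1, 0) + (0, q.2) := by simp
    conv_lhs => rw [this]
    rw [map_add, hT0]
  set Ψ' : (V × X) ≃L[ℝ] (V × X) :=
    ContinuousLinearEquiv.equivOfInverse
      ((ContinuousLinearMap.fst ℝ V X).prod T)
      ((ContinuousLinearMap.fst ℝ V X).prod
        ((ContinuousLinearMap.snd ℝ V X) - T.comp ((ContinuousLinearMap.inl ℝ V X).comp
          (ContinuousLinearMap.fst ℝ V X))))
      (by
        intro q
        have := hTs q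
        simp [this])
      (by
        intro q
        have := hTs (q.1, q.2 - T (q.1, 0))
        simp [this]) with hΨ'
  have hder : fderiv ℝ Ψ (s0, ξ0) = (Ψ' : V × X →L[ℝ] V × X) := by
    have h1 : HasFDerivAt Ψ ((ContinuousLinearMap.fst ℝ V X).prod T) (s0, ξ0) :=
      hasFDerivAt_fst.prodMk (Lc.hasFDerivAt.comp _ hΦd.hasFDerivAt)
    rw [h1.fderiv]
    rfl
  have : CompleteSpace X := FiniteDimensional.complete ℝ X
  obtain ⟨G, hG0, hG1, hG2, hG3⟩ := localInverse_smooth hΨs Ψ' hder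
  have hΨ0 : Ψ (s0, ξ0) = (s0, 0) := by simp [hΨ, h0]
  rw [hΨ0] at hG0 hG2 hG3
  intro U hU
  have hc : Tendsto (fun s : V => ((s, 0) : V × X)) (𝓝 s0) (𝓝 (s0, 0)) :=
    (Continuous.prodMk continuous_id continuous_const).tendsto' _ _ rfl
  have hGc : Tendsto (fun s : V => (G (s, 0)).2) (𝓝 s0) (𝓝 ξ0) := by
    have h1 : Tendsto G (𝓝 (s0, 0)) (𝓝 (s0, ξ0)) := by
      have := hG3.self_of_nhds.continuousAt.tendsto
      rwa [hG0] at this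
    exact (continuous_snd.tendsto _).comp (h1.comp hc)
  filter_upwards [hc.eventually hG2, hGc.eventually hU] with s hs hsU
  refine ⟨(G (s, 0)).2, hsU, ?_⟩
  have h1 : (G (s, 0)).1 = s := congrArg Prod.fst hs
  have h2 : L (Φ (G (s, 0))) = 0 := congrArg Prod.snd hs
  have h3 : G (s, 0) = (s, (G (s, 0)).2) := Prod.ext h1 rfl
  rw [← h3]
  exact hLi _ h2

end Square

variable {E : Type*} [NormedAddCommGroup E] [NormedSpace ℝ E] [FiniteDimensional ℝ E]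
  {M : Type*} [MetricSpace M] [ChartedSpace E M] [IsManifold 𝓘(ℝ, E) ∞ M]
  [RiemannianBundle (fun x : M => TangentSpace 𝓘(ℝ, E) x)]
  [IsContMDiffRiemannianBundle 𝓘(ℝ, E) ∞ E (fun x : M => TangentSpace 𝓘(ℝ, E) x)]
  {e : ∀ x : M, TangentSpace 𝓘(ℝ, E) x → M}
  {V : Type*} [NormedAddCommGroup V] [NormedSpace ℝ V]

/-- the slice through `u₀`, transported to the moving point -/
def fu (a : V → M) (s₀ : V) (u₀ : TangentSpace 𝓘(ℝ, E) (a s₀))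
    (Q : Submodule ℝ (TangentSpace 𝓘(ℝ, E) (a s₀))) (q : V × Q) : TangentSpace 𝓘(ℝ, E) (a q.1) :=
  vec (a s₀) (a q.1) (crd (a s₀) (a s₀) (u₀ + q.2))

/-- the normalised slice -/
def fn (a : V → M) (s₀ : V) (u₀ : TangentSpace 𝓘(ℝ, E) (a s₀))
    (Q : Submodule ℝ (TangentSpace 𝓘(ℝ, E) (a s₀))) (q : V × Q) : TangentSpace 𝓘(ℝ, E) (a q.1) :=
  (Real.sqrt (‖fu a s₀ u₀ Q q‖ ^ 2))⁻¹ • fu a s₀ u₀ Q q

/-- the cut point of the normalised slice -/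
def fg (e : ∀ x : M, TangentSpace 𝓘(ℝ, E) x → M) (D : ℝ) (a : V → M) (s₀ : V)
    (u₀ : TangentSpace 𝓘(ℝ, E) (a s₀)) (Q : Submodule ℝ (TangentSpace 𝓘(ℝ, E) (a s₀)))
    (q : V × Q) : M := e (a q.1) (D • fn a s₀ u₀ Q q)

theorem fu_base (a : V → M) (s₀ : V) (u₀ : TangentSpace 𝓘(ℝ, E) (a s₀))
    (Q : Submodule ℝ (TangentSpace 𝓘(ℝ, E) (a s₀))) (η : Q) :
    fu a s₀ u₀ Q (s₀, η) = u₀ + η := vec_crd (a s₀) (mem_extChartAt_source (a s₀)) _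

theorem fn_base (a : V → M) (s₀ : V) {u₀ : TangentSpace 𝓘(ℝ, E) (a s₀)} (hu : ‖u₀‖ = 1)
    {Q : Submodule ℝ (TangentSpace 𝓘(ℝ, E) (a s₀))} (hQ : ∀ η ∈ Q, inner ℝ u₀ η = (0 : ℝ))
    (η : Q) : fn a s₀ u₀ Q (s₀, η) = slc u₀ Q η := by
  have h1 : ‖u₀ + (η : TangentSpace 𝓘(ℝ, E) (a s₀))‖ ^ 2 = 1 + ‖η‖ ^ 2 := by
    rw [norm_add_sq_real, hu, hQ η η.2]
    simp
  rw [fn, fu_base, h1, slc]

theorem fg_base (D : ℝ) (a : V → M) (s₀ : V) {u₀ : TangentSpace 𝓘(ℝ, E) (a s₀)} (hu : ‖u₀‖ = 1)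
    {Q : Submodule ℝ (TangentSpace 𝓘(ℝ, E) (a s₀))} (hQ : ∀ η ∈ Q, inner ℝ u₀ η = (0 : ℝ))
    (η : Q) : fg e D a s₀ u₀ Q (s₀, η) = sg e D u₀ Q η := by
  rw [fg, fn_base a s₀ hu hQ, sg]

theorem fn_smV {a : V → M} {s₀ : V} (ha : ∀ᶠ s in 𝓝 s₀, ContMDiffAt 𝓘(ℝ, V) 𝓘(ℝ, E) ∞ a s)
    {u₀ : TangentSpace 𝓘(ℝ, E) (a s₀)} (hu : ‖u₀‖ = 1)
    (Q : Submodule ℝ (TangentSpace 𝓘(ℝ, E) (a s₀))) :
    ∀ᶠ q in 𝓝 ((s₀, 0) : V × Q), SmV (fun q : V × Q => a q.1) (fn a s₀ u₀ Q) q ∧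
      ‖fn a s₀ u₀ Q q‖ = 1 := by
  have hfst : Tendsto (Prod.fst : V × Q → V) (𝓝 (s₀, 0)) (𝓝 s₀) :=
    continuous_fst.tendsto' _ _ rfl
  have has : ∀ᶠ s in 𝓝 s₀, a s ∈ (extChartAt 𝓘(ℝ, E) (a s₀)).source :=
    ha.self_of_nhds.continuousAt.eventually
      ((isOpen_extChartAt_source (I := 𝓘(ℝ, E)) (a s₀)).mem_nhds (mem_extChartAt_source _))
  have h1 : ∀ᶠ q in 𝓝 ((s₀, 0) : V × Q), SmV (fun q : V × Q => a q.1) (fu a s₀ u₀ Q) q := by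
    filter_upwards [hfst.eventually ha, hfst.eventually has] with q h2 h3
    refine smV_vec (V := V × Q) (f := fun q : V × Q => a q.1) (a s₀) h3
      (h2.comp q contDiffAt_fst.contMDiffAt) ?_
    have h4 : ContDiff ℝ ∞ (fun q : V × Q => u₀ + (q.2 : TangentSpace 𝓘(ℝ, E) (a s₀))) :=
      contDiff_const.add (Q.subtypeL.contDiff.comp contDiff_snd)
    exact ((crd (E := E) (a s₀) (a s₀)).contDiff.comp h4).contDiffAt
  have h2 : ∀ᶠ q in 𝓝 ((s₀, 0) : V × Q), 0 < ‖fu a s₀ u₀ Q q‖ ^ 2 := by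
    refine h1.self_of_nhds.norm_sq.continuousAt.eventually (lt_mem_nhds ?_)
    simp only
    rw [fu_base]
    simp [hu]
  filter_upwards [h1, h2] with q h3 h4
  have h5 : 0 < Real.sqrt (‖fu a s₀ u₀ Q q‖ ^ 2) := Real.sqrt_pos.2 h4
  refine ⟨SmV.smul (c := fun q => (Real.sqrt (‖fu a s₀ u₀ Q q‖ ^ 2))⁻¹)
    ((h3.norm_sq.sqrt h4.ne').inv h5.ne') h3, ?_⟩
  rw [Real.sqrt_sq (norm_nonneg _)] at h5
  rw [fn, Real.sqrt_sq (norm_nonneg _), norm_smul, norm_inv, norm_norm, inv_mul_cancel₀ h5.ne']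

variable [CompactSpace M] [ConnectedSpace M] [IsRiemannianManifold 𝓘(ℝ, E) M]

/-- **polar coordinates near the cut locus of a moving point** -/
theorem exists_polar_fam [CompleteSpace V] (F : Facts e) {D : ℝ} (hD : 0 < D) (hB : InjGE e D)
    (hdiam : ∀ p q : M, dist p q ≤ D) {l : ℕ}
    (hl : ∀ x y : M, dist x y = D → finrank ℝ (Pl e D x y) = l + 1) {a b : V → M} {s₀ : V}
    (ha : ∀ᶠ s in 𝓝 s₀, ContMDiffAt 𝓘(ℝ, V) 𝓘(ℝ, E) ∞ a s)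
    (hb : ∀ᶠ s in 𝓝 s₀, ContMDiffAt 𝓘(ℝ, V) 𝓘(ℝ, E) ∞ b s) (hab : dist (a s₀) (b s₀) = D) :
    ∃ (g : V → M) (A : ∀ s, TangentSpace 𝓘(ℝ, E) (g s)), A s₀ = 0 ∧ ∀ᶠ s in 𝓝 s₀,
      SmV g A s ∧ dist (a s) (g s) = D ∧ A s ∈ Pl e D (a s) (g s) ∧ e (g s) (A s) = b s := by
  obtain ⟨u₀, hu⟩ := exists_Lk F hD hab
  obtain ⟨Q, hQ⟩ : ∃ Q : Submodule ℝ (TangentSpace 𝓘(ℝ, E) (a s₀)),
    Q = (Pl e D (b s₀) (a s₀))ᗮ := ⟨_, rfl⟩
  have hQu : ∀ η ∈ Q, inner ℝ u₀ η = (0 : ℝ) := fun η hη => by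
    rw [hQ] at hη
    exact (Submodule.mem_orthogonal _ _).1 hη _ (Lk_subset_Pl D _ _ hu)
  have hg0 : sg e D u₀ Q 0 = b s₀ := (sg_zero D u₀ Q).trans hu.2
  have hfst : Tendsto (Prod.fst : V × Q → V) (𝓝 (s₀, 0)) (𝓝 s₀) :=
    continuous_fst.tendsto' _ _ rfl
  have hn := fn_smV ha hu.1 Q
  have hgs : ∀ᶠ q in 𝓝 ((s₀, 0) : V × Q),
      ContMDiffAt 𝓘(ℝ, V × Q) 𝓘(ℝ, E) ∞ (fg e D a s₀ u₀ Q) q := by
    filter_upwards [hn] with q hq
    exact (SmV.smul (c := fun _ => D) contDiffAt_const hq.1).exp F.isExp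
  have hgd : ∀ᶠ q in 𝓝 ((s₀, 0) : V × Q), dist (fg e D a s₀ u₀ Q q) (a q.1) = D := by
    filter_upwards [hn] with q hq
    exact dist_of_Lk hD hB ⟨hq.2, rfl⟩
  have has : ∀ᶠ q in 𝓝 ((s₀, 0) : V × Q),
      ContMDiffAt 𝓘(ℝ, V × Q) 𝓘(ℝ, E) ∞ (fun q : V × Q => a q.1) q := by
    filter_upwards [hfst.eventually ha] with q hq
    exact hq.comp q contDiffAt_fst.contMDiffAt
  have hd0 : dist (a s₀) (fg e D a s₀ u₀ Q (s₀, 0)) = D := by
    rw [dist_comm]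
    exact hgd.self_of_nhds
  obtain ⟨bb, hbb⟩ : ∃ bb : OrthonormalBasis (Fin (l + 1)) ℝ
      (Pl e D (a s₀) (fg e D a s₀ u₀ Q (s₀, 0))), True :=
    ⟨(stdOrthonormalBasis ℝ (Pl e D (a s₀) (fg e D a s₀ u₀ Q (s₀, 0)))).reindex
      (finCongr (hl _ _ hd0)), trivial⟩
  have hlift : ∀ i, ∃ w : ∀ q : V × Q, TangentSpace 𝓘(ℝ, E) (fg e D a s₀ u₀ Q q),
      w (s₀, 0) = (bb i : TangentSpace 𝓘(ℝ, E) (fg e D a s₀ u₀ Q (s₀, 0))) ∧
      ∀ᶠ q in 𝓝 ((s₀, 0) : V × Q), SmV (fg e D a s₀ u₀ Q) w q ∧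
        w q ∈ Lk e D (a q.1) (fg e D a s₀ u₀ Q q) := by
    intro i
    refine exists_lift F hD hB hdiam hl (f := fg e D a s₀ u₀ Q) (g := fun q : V × Q => a q.1)
      (s₀ := ((s₀, 0) : V × Q)) hgs has hgd ?_
    exact (mem_Lk_iff F hD hB hdiam hd0).2 ⟨bb.orthonormal.1 i, (bb i).2⟩
  choose W hW0 hW using hlift
  let A : ∀ r : V × (Q × (Fin (l + 1) → ℝ)),
      TangentSpace 𝓘(ℝ, E) (fg e D a s₀ u₀ Q (r.1, r.2.1)) :=
    fun r => ∑ i, r.2.2 i • W i (r.1, r.2.1)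
  have hpr : ContDiff ℝ ∞ (fun r : V × (Q × (Fin (l + 1) → ℝ)) => ((r.1, r.2.1) : V × Q)) :=
    contDiff_fst.prodMk contDiff_snd.fst
  have hprt : Tendsto (fun r : V × (Q × (Fin (l + 1) → ℝ)) => ((r.1, r.2.1) : V × Q))
      (𝓝 (s₀, 0)) (𝓝 (s₀, 0)) := hpr.continuous.tendsto' _ _ rfl
  have hA : ∀ᶠ r in 𝓝 ((s₀, 0) : V × (Q × (Fin (l + 1) → ℝ))),
      SmV (fun r : V × (Q × (Fin (l + 1) → ℝ)) => fg e D a s₀ u₀ Q (r.1, r.2.1)) A r ∧
        A r ∈ Pl e D (a r.1) (fg e D a s₀ u₀ Q (r.1, r.2.1)) := by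
    filter_upwards [hprt.eventually (eventually_all.2 hW), hprt.eventually hgs] with r h1 h2
    refine ⟨SmV.sum (V := V × (Q × (Fin (l + 1) → ℝ))) Finset.univ
      (h2.comp r hpr.contMDiff.contMDiffAt) fun i _ => ?_,
      Submodule.sum_mem _ fun i _ => Submodule.smul_mem _ _ (Lk_subset_Pl D _ _ (h1 i).2)⟩
    refine SmV.smul (V := V × (Q × (Fin (l + 1) → ℝ))) (c := fun r => r.2.2 i) ?_
      (SmV.comp (V' := V × (Q × (Fin (l + 1) → ℝ)))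
        (h := fun r => ((r.1, r.2.1) : V × Q)) (h1 i).1 hpr.contDiffAt)
    exact (contDiff_apply ℝ ℝ i).contDiffAt.comp r contDiffAt_snd.snd
  have hA0 : A (s₀, 0) = 0 := by simp [A]
  let P : V × (Q × (Fin (l + 1) → ℝ)) → M := fun r => e _ (A r)
  have hP0 : P (s₀, 0) = sg e D u₀ Q 0 := by
    simp only [P]
    rw [hA0, exp_zero_eq F.isExp]
    exact fg_base D a s₀ hu.1 hQu 0
  have hPs : ∀ᶠ r in 𝓝 ((s₀, 0) : V × (Q × (Fin (l + 1) → ℝ))),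
      ContMDiffAt 𝓘(ℝ, V × (Q × (Fin (l + 1) → ℝ))) 𝓘(ℝ, E) ∞ P r :=
    hA.mono fun r hr => hr.1.exp F.isExp
  obtain ⟨c, hc⟩ : ∃ c, c = extChartAt 𝓘(ℝ, E) (sg e D u₀ Q 0) := ⟨_, rfl⟩
  have hcs : c.source ∈ 𝓝 (sg e D u₀ Q 0) := by
    rw [hc]
    exact extChartAt_source_mem_nhds _
  have hcm : ∀ z ∈ c.source, ContMDiffAt 𝓘(ℝ, E) 𝓘(ℝ, E) ∞ c z := by
    intro z hz
    rw [hc] at hz ⊢
    exact contMDiffAt_extChartAt' (exm_mem_source hz)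
  have hPc : ∀ᶠ r in 𝓝 ((s₀, 0) : V × (Q × (Fin (l + 1) → ℝ))), P r ∈ c.source := by
    refine hPs.self_of_nhds.continuousAt.eventually ?_
    rw [hP0]
    exact hcs
  have hbc : ∀ᶠ s in 𝓝 s₀, b s ∈ c.source := by
    refine hb.self_of_nhds.continuousAt.eventually ?_
    rw [← hg0]
    exact hcs
  have hfst' : Tendsto (Prod.fst : V × (Q × (Fin (l + 1) → ℝ)) → V) (𝓝 (s₀, 0)) (𝓝 s₀) :=
    continuous_fst.tendsto' _ _ rfl
  let Φ : V × (Q × (Fin (l + 1) → ℝ)) → E := fun r => c (P r) - c (b r.1)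
  have hΦ : ∀ᶠ r in 𝓝 ((s₀, 0) : V × (Q × (Fin (l + 1) → ℝ))), ContDiffAt ℝ ∞ Φ r := by
    filter_upwards [hPs, hPc, hfst'.eventually hb, hfst'.eventually hbc] with r h1 h2 h3 h4
    have h5 : ContMDiffAt 𝓘(ℝ, V × (Q × (Fin (l + 1) → ℝ))) 𝓘(ℝ, E) ∞ (fun r => c (P r)) r :=
      (hcm _ h2).comp r h1
    have h6 : ContMDiffAt 𝓘(ℝ, V × (Q × (Fin (l + 1) → ℝ))) 𝓘(ℝ, E) ∞
        (fun r => c (b r.1)) r :=
      (hcm _ h4).comp r (h3.comp r contDiffAt_fst.contMDiffAt)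
    exact h5.contDiffAt.sub h6.contDiffAt
  have hΦ0 : Φ (s₀, 0) = 0 := by
    simp only [Φ]
    rw [hP0, hg0, sub_self]
  have hfr : finrank ℝ (Q × (Fin (l + 1) → ℝ)) = finrank ℝ E := by
    rw [Module.finrank_prod, Module.finrank_fin_fun]
    have h1 := Submodule.finrank_add_finrank_orthogonal (Pl e D (b s₀) (a s₀))
    rw [hl (b s₀) (a s₀) (dist_of_Lk hD hB hu)] at h1
    have h2 : finrank ℝ (TangentSpace 𝓘(ℝ, E) (a s₀)) = finrank ℝ E := rfl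
    rw [h2, ← hQ] at h1
    omega
  have hinj : ∀ ζ, fderiv ℝ Φ (s₀, 0) (0, ζ) = 0 → ζ = 0 := by
    intro ζ hζ
    let W' : Fin (l + 1) → ∀ η : Q, TangentSpace 𝓘(ℝ, E) (sg e D u₀ Q η) :=
      fun i η => (W i (s₀, η) : E)
    have hin : ContDiff ℝ ∞ (fun η : Q => ((s₀, η) : V × Q)) := contDiff_const.prodMk contDiff_id
    have hint : Tendsto (fun η : Q => ((s₀, η) : V × Q)) (𝓝 0) (𝓝 (s₀, 0)) :=
      hin.continuous.tendsto' _ _ rfl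
    have k1 : ∀ i, ∀ᶠ η in 𝓝 (0 : Q), SmV (sg e D u₀ Q) (W' i) η := by
      intro i
      filter_upwards [hint.eventually (hW i)] with η hη
      have h1 := SmV.comp (V' := Q) (h := fun η : Q => ((s₀, η) : V × Q)) hη.1 hin.contDiffAt
      refine ContMDiffAt.congr_of_eventuallyEq h1 (Eventually.of_forall fun η' => ?_)
      exact tb_congr (fg_base D a s₀ hu.1 hQu η').symm rfl
    have key : ∀ (z z' : M), z = z' → ∀ w : E, (w : TangentSpace 𝓘(ℝ, E) z) ∈ Pl e D (a s₀) z →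
        (w : TangentSpace 𝓘(ℝ, E) z') ∈ Pl e D (a s₀) z' := by
      rintro z _ rfl w hw
      exact hw
    have k2 : ∀ i, W' i 0 ∈ Pl e D (a s₀) (sg e D u₀ Q 0) := fun i =>
      key _ _ (fg_base D a s₀ hu.1 hQu 0) _ (Lk_subset_Pl D _ _ (hW i).self_of_nhds.2)
    have k3 : LinearIndependent ℝ fun i => W' i 0 := by
      have h1 := bb.orthonormal.linearIndependent
      have h2 := h1.map' (Pl e D (a s₀) (fg e D a s₀ u₀ Q (s₀, 0))).subtype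
        (Submodule.ker_subtype _)
      have h3 : (fun i => W i (s₀, 0)) =
          (Pl e D (a s₀) (fg e D a s₀ u₀ Q (s₀, 0))).subtype ∘ bb := by
        funext i
        exact hW0 i
      rw [← h3] at h2
      exact h2
    refine sP_injective F hD hB hdiam hu.1 (by rw [hg0]; exact hQ) W' k1 k2 k3 ζ ?_
    have k4 : (fun q => extChartAt 𝓘(ℝ, E) (sg e D u₀ Q 0) (sP W' q)) =
        fun q => Φ (s₀, q) + c (b s₀) := by
      funext q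
      simp only [Φ, P]
      rw [sub_add_cancel, ← hc]
      have key2 : ∀ (z z' : M), z = z' → ∀ w : E, e z w = e z' w := by
        rintro z _ rfl w
        rfl
      exact congrArg c (key2 _ _ (fg_base D a s₀ hu.1 hQu q.1).symm _)
    have k5 : HasFDerivAt (fun q : Q × (Fin (l + 1) → ℝ) => Φ (s₀, q) + c (b s₀))
        ((fderiv ℝ Φ (s₀, 0)).comp (ContinuousLinearMap.inr ℝ V (Q × (Fin (l + 1) → ℝ)))) 0 := by
      have h1 := (hΦ.self_of_nhds.differentiableAt (by simp)).hasFDerivAt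
      have h2 := h1.comp (0 : Q × (Fin (l + 1) → ℝ)) (hasFDerivAt_prodMk_right (𝕜 := ℝ) s₀ 0)
      exact h2.add_const _
    rw [k4, k5.fderiv]
    exact hζ
  obtain ⟨h, h0, h1, -⟩ := square hfr hΦ hΦ0 hinj
  have hh : Tendsto (fun s => ((s, h s) : V × (Q × (Fin (l + 1) → ℝ)))) (𝓝 s₀) (𝓝 (s₀, 0)) := by
    have h2 := h1.self_of_nhds.1.continuousAt.tendsto
    rw [h0] at h2
    exact tendsto_id.prodMk_nhds h2
  refine ⟨fun s => fg e D a s₀ u₀ Q (s, (h s).1), fun s => A (s, h s), ?_, ?_⟩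
  · simp [A, h0]
  · filter_upwards [h1, hh.eventually hA, hh.eventually hPc, hbc,
      (hprt.comp hh).eventually hgd] with s k1 k2 k3 k4 k5
    refine ⟨SmV.comp (V' := V) (h := fun s => ((s, h s) : V × (Q × (Fin (l + 1) → ℝ)))) k2.1
      (contDiffAt_id.prodMk k1.1), ?_, k2.2, ?_⟩
    · rw [dist_comm]
      exact k5
    · exact c.injOn k3 k4 (sub_eq_zero.1 k1.2)

end

end Vale.Agent.P231Z.Tube
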